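import Vale.Agent.P163.Rot

/-! Two-point functions of the O(n) model on finite subsets of the square lattice and on tori. -/

open MeasureTheory
open scoped RealInnerProductSpace

namespace Vale.Agent.P163

/-- Free-boundary two-point function on a finite set of sites. -/
noncomputable def boxCorr (n : ℕ) (β : ℝ) (Λ : Finset (ℤ × ℤ)) (x y : Λ) : ℝ :=
  let E : (Λ → Spin n) → ℝ := fun σ => ∑ a : Λ, ∑ b : Λ,
    if (b : ℤ × ℤ) = (a : ℤ × ℤ) + (1, 0) ∨ (b : ℤ × ℤ) = (a : ℤ × ℤ) + (0, 1) then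
      ⟪(σ a).1, (σ b).1⟫ else 0
  (∫ σ, ⟪(σ x).1, (σ y).1⟫ * Real.exp (β * E σ) ∂Measure.pi fun _ : Λ => unif n) /
    ∫ σ, Real.exp (β * E σ) ∂Measure.pi fun _ : Λ => unif n

/-- Periodic two-point function on the `M` by `M` torus, sites given by integer representatives. -/
noncomputable def torusCorr (n : ℕ) (β : ℝ) (M : ℕ) [NeZero M] (x y : ℤ × ℤ) : ℝ :=
  let E : (ZMod M × ZMod M → Spin n) → ℝ := fun σ => ∑ z : ZMod M × ZMod M,
    (⟪(σ z).1, (σ (z + (1, 0))).1⟫ + ⟪(σ z).1, (σ (z + (0, 1))).1⟫)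
  (∫ σ, ⟪(σ ((x.1 : ZMod M), (x.2 : ZMod M))).1, (σ ((y.1 : ZMod M), (y.2 : ZMod M))).1⟫ *
      Real.exp (β * E σ) ∂Measure.pi fun _ : ZMod M × ZMod M => unif n) /
    ∫ σ, Real.exp (β * E σ) ∂Measure.pi fun _ : ZMod M × ZMod M => unif n

/-- Euclidean distance of two sites. -/
noncomputable def siteDist (x y : ℤ × ℤ) : ℝ :=
  Real.sqrt (((x.1 - y.1 : ℤ) : ℝ) ^ 2 + ((x.2 - y.2 : ℤ) : ℝ) ^ 2)

end Vale.Agent.P163
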