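import Vale.Agent.P163.Rot

/-! Finite-volume Gibbs averages of sphere-valued spins: affinity estimate and Jensen bound. -/

open MeasureTheory
open scoped RealInnerProductSpace

namespace Vale.Agent.P163

variable {V : Type*} [Fintype V] {ι : Type*} [Fintype ι] {n : ℕ} [NeZero n]

/-- The product of the uniform sphere measures. -/
noncomputable def refMeas (V : Type*) [Fintype V] (n : ℕ) : Measure (V → Spin n) :=
  Measure.pi fun _ => unif n

instance refMeas_prob : IsProbabilityMeasure (refMeas V n) := by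
  unfold refMeas; infer_instance

theorem integrable_cont {F : Type*} [NormedAddCommGroup F] {f : (V → Spin n) → F}
    (hf : Continuous f) : Integrable f (refMeas V n) :=
  hf.integrable_of_hasCompactSupport (HasCompactSupport.of_compactSpace f)

/-- Rotate the spin at each vertex `x` by the angle `h x`. -/
noncomputable def rotConf {p q : Fin n} (hpq : p ≠ q) (h : V → ℝ) (σ : V → Spin n) : V → Spin n :=
  fun x => rot hpq (h x) (σ x)

omit [NeZero n] in
theorem continuous_rot {p q : Fin n} (hpq : p ≠ q) (t : ℝ) : Continuous (rot hpq t) :=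
  continuous_sphMap _

omit [NeZero n] [Fintype V] in
theorem continuous_rotConf {p q : Fin n} (hpq : p ≠ q) (h : V → ℝ) :
    Continuous (rotConf hpq h) :=
  continuous_pi fun x => (continuous_rot hpq (h x)).comp (continuous_apply x)

omit [NeZero n] [Fintype V] in
theorem rotConf_neg {p q : Fin n} (hpq : p ≠ q) (h : V → ℝ) (σ : V → Spin n) :
    rotConf hpq h (rotConf hpq (-h) σ) = σ :=
  funext fun x => by simp [rotConf, rot_rot, rot_zero]

theorem rotConf_preserving {p q : Fin n} (hpq : p ≠ q) (h : V → ℝ) :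
    MeasurePreserving (rotConf hpq h) (refMeas V n) (refMeas V n) :=
  measurePreserving_pi _ _ fun _ => sphMap_preserving _

theorem integral_rotConf {F : Type*} [NormedAddCommGroup F] [NormedSpace ℝ F]
    {p q : Fin n} (hpq : p ≠ q) (h : V → ℝ) {G : (V → Spin n) → F} (hG : Continuous G) :
    ∫ σ, G (rotConf hpq h σ) ∂refMeas V n = ∫ σ, G σ ∂refMeas V n := by
  have hmp := rotConf_preserving (V := V) hpq h
  conv_rhs => rw [← hmp.map_eq]
  rw [integral_map hmp.measurable.aemeasurable]
  rw [hmp.map_eq]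
  exact (integrable_cont hG).aestronglyMeasurable

/-- Partition function. -/
noncomputable def part (H : (V → Spin n) → ℝ) : ℝ := ∫ σ, Real.exp (H σ) ∂refMeas V n

/-- Gibbs average. -/
noncomputable def gav (H f : (V → Spin n) → ℝ) : ℝ :=
  (∫ σ, f σ * Real.exp (H σ) ∂refMeas V n) / part H

theorem part_pos {H : (V → Spin n) → ℝ} (hH : Continuous H) : 0 < part H :=
  integral_exp_pos (integrable_cont (by fun_prop))

/-- Mermin-Wagner in affinity form. -/
theorem affinity_bound {p q : Fin n} (hpq : p ≠ q) (h : V → ℝ) {H f : (V → Spin n) → ℝ}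
    (hH : Continuous H) (hf : Continuous f) (hf1 : ∀ σ, |f σ| ≤ 1) {K η : ℝ} (hη : 0 < η)
    (hKη : K ≤ η ^ 2)
    (hK : ∀ σ, H σ - (H (rotConf hpq h σ) + H (rotConf hpq (-h) σ)) / 2 ≤ K) :
    |gav H (fun σ => f (rotConf hpq h σ)) - gav H (fun σ => f (rotConf hpq (-h) σ))|
      ≤ 3 * η := by
  have hRc := continuous_rotConf (V := V) hpq h
  have hRm := continuous_rotConf (V := V) hpq (-h)
  have hZ := part_pos hH
  set R := rotConf (V := V) hpq h with hR
  set R' := rotConf (V := V) hpq (-h) with hR'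
  have hRR : ∀ σ, R (R' σ) = σ := fun σ => rotConf_neg hpq h σ
  have hRR' : ∀ σ, R' (R σ) = σ := fun σ => by
    simpa [hR, hR'] using rotConf_neg hpq (-h) σ
  let P : (V → Spin n) → ℝ := fun σ => Real.exp (H (R' σ) / 2)
  let Q : (V → Spin n) → ℝ := fun σ => Real.exp (H (R σ) / 2)
  have hP2 : ∀ σ, P σ ^ 2 = Real.exp (H (R' σ)) := fun σ => by
    simp only [P, pow_two, ← Real.exp_add]; congr 1; ring
  have hQ2 : ∀ σ, Q σ ^ 2 = Real.exp (H (R σ)) := fun σ => by
    simp only [Q, pow_two, ← Real.exp_add]; congr 1; ring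
  have e1 : ∫ σ, f (R σ) * Real.exp (H σ) ∂refMeas V n = ∫ σ, f σ * P σ ^ 2 ∂refMeas V n := by
    rw [← integral_rotConf hpq h (G := fun σ => f σ * P σ ^ 2) (by fun_prop)]
    simp only [hP2, ← hR, hRR']
  have e2 : ∫ σ, f (R' σ) * Real.exp (H σ) ∂refMeas V n = ∫ σ, f σ * Q σ ^ 2 ∂refMeas V n := by
    rw [← integral_rotConf hpq (-h) (G := fun σ => f σ * Q σ ^ 2) (by fun_prop)]
    simp only [hQ2, ← hR', hRR]
  have z1 : ∫ σ, P σ ^ 2 ∂refMeas V n = part H := by
    simp only [hP2]; exact integral_rotConf hpq (-h) (G := fun σ => Real.exp (H σ)) (by fun_prop)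
  have z2 : ∫ σ, Q σ ^ 2 ∂refMeas V n = part H := by
    simp only [hQ2]; exact integral_rotConf hpq h (G := fun σ => Real.exp (H σ)) (by fun_prop)
  have haff : (1 - K) * part H ≤ ∫ σ, P σ * Q σ ∂refMeas V n := by
    rw [part, ← integral_const_mul]
    refine integral_mono (integrable_cont (by fun_prop)) (integrable_cont (by fun_prop)) fun σ => ?_
    have h1 : (1 - K) * Real.exp (H σ) ≤ Real.exp (-K) * Real.exp (H σ) :=
      mul_le_mul_of_nonneg_right (by linarith [Real.add_one_le_exp (-K)]) (Real.exp_pos _).le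
    refine h1.trans ?_
    simp only [P, Q, ← Real.exp_add]
    exact Real.exp_le_exp.mpr (by linarith [hK σ])
  have hpt : ∀ σ, |f σ * P σ ^ 2 - f σ * Q σ ^ 2| ≤
      (1 / (2 * η) + η) * (P σ ^ 2 + Q σ ^ 2) - (1 / η) * (P σ * Q σ) := by
    intro σ
    have hP : 0 < P σ := Real.exp_pos _
    have hQ : 0 < Q σ := Real.exp_pos _
    rw [← mul_sub, abs_mul]
    refine (mul_le_of_le_one_left (abs_nonneg _) (hf1 σ)).trans ?_
    have key : |P σ ^ 2 - Q σ ^ 2| ≤ (P σ - Q σ) ^ 2 / (2 * η) + η / 2 * (P σ + Q σ) ^ 2 := by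
      have : |P σ ^ 2 - Q σ ^ 2| = |P σ - Q σ| * (P σ + Q σ) := by
        rw [← abs_of_pos (show 0 < P σ + Q σ by positivity), ← abs_mul]
        congr 1; ring
      rw [this, div_add' _ _ _ (by positivity), le_div_iff₀ (by positivity), ← sq_abs (P σ - Q σ)]
      nlinarith [sq_nonneg (|P σ - Q σ| - η * (P σ + Q σ))]
    refine key.trans ?_
    have : (P σ + Q σ) ^ 2 ≤ 2 * (P σ ^ 2 + Q σ ^ 2) := by nlinarith [sq_nonneg (P σ - Q σ)]
    have h3 : (P σ - Q σ) ^ 2 / (2 * η) =
        1 / (2 * η) * (P σ ^ 2 + Q σ ^ 2) - (1 / η) * (P σ * Q σ) := by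
      field_simp; ring
    rw [h3]
    nlinarith
  have hint : |(∫ σ, f σ * P σ ^ 2 ∂refMeas V n) - ∫ σ, f σ * Q σ ^ 2 ∂refMeas V n|
      ≤ 3 * η * part H := by
    rw [← integral_sub (integrable_cont (by fun_prop)) (integrable_cont (by fun_prop))]
    refine (abs_integral_le_integral_abs).trans ?_
    refine (integral_mono (integrable_cont (by fun_prop)) (integrable_cont (by fun_prop)) hpt).trans ?_
    rw [integral_sub (integrable_cont (by fun_prop)) (integrable_cont (by fun_prop)),
      integral_const_mul, integral_const_mul,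
      integral_add (integrable_cont (by fun_prop)) (integrable_cont (by fun_prop)), z1, z2]
    have hK' : K / η ≤ η := by rw [div_le_iff₀ hη]; linarith [sq η]
    have := mul_le_mul_of_nonneg_left haff (show 0 ≤ 1 / η by positivity)
    calc (1 / (2 * η) + η) * (part H + part H) - 1 / η * ∫ σ, P σ * Q σ ∂refMeas V n
        ≤ (1 / (2 * η) + η) * (part H + part H) - 1 / η * ((1 - K) * part H) := by linarith
      _ = (2 * η + K / η) * part H := by field_simp; ring
      _ ≤ 3 * η * part H := mul_le_mul_of_nonneg_right (by linarith) hZ.le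
  simp only [gav, e1, e2, ← sub_div, abs_div, abs_of_pos hZ]
  rw [div_le_iff₀ hZ]
  exact hint

/-- Jensen bound for a change of the energy. -/
theorem part_le_exp_gav {H X : (V → Spin n) → ℝ} (hH : Continuous H) (hX : Continuous X) :
    part (fun σ => H σ + X σ) ≤ part H * Real.exp (gav (fun σ => H σ + X σ) X) := by
  have hH' : Continuous fun σ => H σ + X σ := by fun_prop
  have hZ := part_pos hH'
  set m := gav (fun σ => H σ + X σ) X with hm
  have hmZ : ∫ σ, X σ * Real.exp (H σ + X σ) ∂refMeas V n = m * part (fun σ => H σ + X σ) := by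
    simp only [hm, gav]; rw [div_mul_cancel₀ _ hZ.ne']
  have h1 : Real.exp (-m) * part (fun σ => H σ + X σ) ≤ part H := by
    have e : ∫ σ, Real.exp (-m) * ((1 + m) * Real.exp (H σ + X σ) - X σ * Real.exp (H σ + X σ))
        ∂refMeas V n = Real.exp (-m) * part (fun σ => H σ + X σ) := by
      rw [integral_const_mul,
        integral_sub (integrable_cont (by fun_prop)) (integrable_cont (by fun_prop)),
        integral_const_mul, hmZ]
      simp only [part]; ring
    rw [← e]
    refine integral_mono (integrable_cont (by fun_prop)) (integrable_cont (by fun_prop)) fun σ => ?_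
    have h := mul_le_mul_of_nonneg_right (Real.add_one_le_exp (m - X σ))
      (mul_pos (Real.exp_pos (-m)) (Real.exp_pos (H σ + X σ))).le
    calc Real.exp (-m) * ((1 + m) * Real.exp (H σ + X σ) - X σ * Real.exp (H σ + X σ))
        = (m - X σ + 1) * (Real.exp (-m) * Real.exp (H σ + X σ)) := by ring
      _ ≤ Real.exp (m - X σ) * (Real.exp (-m) * Real.exp (H σ + X σ)) := h
      _ = Real.exp (H σ) := by rw [← Real.exp_add, ← Real.exp_add]; congr 1; ring
  rw [Real.exp_neg, inv_mul_le_iff₀ (Real.exp_pos m)] at h1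
  linarith [h1, mul_comm (part H) (Real.exp m)]

theorem gav_le_one {H f : (V → Spin n) → ℝ} (hH : Continuous H) (hf : Continuous f)
    (hf1 : ∀ σ, f σ ≤ 1) : gav H f ≤ 1 := by
  rw [gav, div_le_one (part_pos hH)]
  refine integral_mono (integrable_cont (by fun_prop)) (integrable_cont (by fun_prop)) fun σ => ?_
  exact mul_le_of_le_one_left (Real.exp_pos _).le (hf1 σ)

theorem abs_gav_le_one {H f : (V → Spin n) → ℝ} (hH : Continuous H) (hf : Continuous f)
    (hf1 : ∀ σ, |f σ| ≤ 1) : |gav H f| ≤ 1 := by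
  rw [gav, abs_div, abs_of_pos (part_pos hH), div_le_one (part_pos hH)]
  refine abs_integral_le_integral_abs.trans ?_
  refine integral_mono (integrable_cont (by fun_prop)) (integrable_cont (by fun_prop)) fun σ => ?_
  simp only [abs_mul, Real.abs_exp]
  exact mul_le_of_le_one_left (Real.exp_pos _).le (hf1 σ)

theorem gav_sum (H : (V → Spin n) → ℝ) (hH : Continuous H) {α : Type*} (s : Finset α)
    (f : α → (V → Spin n) → ℝ) (hf : ∀ a, Continuous (f a)) :
    gav H (fun σ => ∑ a ∈ s, f a σ) = ∑ a ∈ s, gav H (f a) := by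
  simp only [gav, ← Finset.sum_div, Finset.sum_mul]
  rw [integral_finsetSum s fun a _ => integrable_cont (by fun_prop)]

omit [NeZero n] in
theorem gav_const_mul (H : (V → Spin n) → ℝ) (c : ℝ) (f : (V → Spin n) → ℝ) :
    gav H (fun σ => c * f σ) = c * gav H f := by
  simp only [gav, mul_assoc, integral_const_mul, mul_div_assoc]

end Vale.Agent.P163
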