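import Vale.Agent.P163.Main
import Vale.Agent.P163.Corr

/-! Transfer to boxes and tori. -/

open MeasureTheory
open scoped RealInnerProductSpace

namespace Vale.Agent.P163

theorem av_intCast {M : ℕ} [NeZero M] (k : ℤ) (h : 2 * k.natAbs ≤ M) :
    av (k : ZMod M) = k.natAbs := by
  rcases eq_or_ne (k * 2) (-(M:ℤ)) with he | he
  · have h1 : ((k : ZMod M)).valMinAbs = -k := by
      refine (ZMod.valMinAbs_spec _ _).mpr ⟨?_, ?_⟩
      · rw [Int.cast_neg, eq_neg_iff_add_eq_zero, ← Int.cast_add, ← two_mul, mul_comm, he]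
        simp
      · have := NeZero.pos M
        constructor <;> omega
    simp [av, h1]
  · have h1 : ((k : ZMod M)).valMinAbs = k := by
      refine (ZMod.valMinAbs_spec _ _).mpr ⟨rfl, ?_⟩
      constructor <;> omega
    simp [av, h1]

/-- Cast of an integer site to the torus. -/
def castT (M : ℕ) (z : ℤ × ℤ) : Tor M := ((z.1 : ZMod M), (z.2 : ZMod M))

theorem len_cast {M : ℕ} [NeZero M] (x y : ℤ × ℤ) (h1 : 2 * (x.1 - y.1).natAbs ≤ M)
    (h2 : 2 * (x.2 - y.2).natAbs ≤ M) :
    len (castT M x - castT M y) = (x.1 - y.1).natAbs + (x.2 - y.2).natAbs := by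
  simp only [len, castT, Prod.fst_sub, Prod.snd_sub, ← Int.cast_sub, av_intCast _ h1, av_intCast _ h2]

theorem siteDist_le (x y : ℤ × ℤ) :
    siteDist x y ≤ (((x.1 - y.1).natAbs + (x.2 - y.2).natAbs : ℕ) : ℝ) := by
  rw [siteDist, Real.sqrt_le_left (by positivity)]
  push_cast [Nat.cast_natAbs]
  nlinarith [sq_abs ((x.1:ℝ) - y.1), sq_abs ((x.2:ℝ) - y.2),
    mul_nonneg (abs_nonneg ((x.1:ℝ) - y.1)) (abs_nonneg ((x.2:ℝ) - y.2))]

theorem rpow_dist_le {η η' : ℝ} (hη' : 0 < η') (hle : η ≤ η') (x y : ℤ × ℤ) :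
    (1 + (((x.1 - y.1).natAbs + (x.2 - y.2).natAbs : ℕ) : ℝ)) ^ (-η') ≤
      (1 + siteDist x y) ^ (-η) := by
  have h0 : 0 ≤ siteDist x y := Real.sqrt_nonneg _
  have h1 : 0 < 1 + siteDist x y := by linarith
  have h2 : -η' ≤ 0 := by linarith
  have h3 : 1 + siteDist x y ≤
      1 + (((x.1 - y.1).natAbs + (x.2 - y.2).natAbs : ℕ) : ℝ) := by linarith [siteDist_le x y]
  exact (Real.rpow_le_rpow_of_nonpos h1 h3 h2).trans
    (Real.rpow_le_rpow_of_exponent_le (by linarith) (by linarith))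

theorem decay_lattice (n : ℕ) (hn : 3 ≤ n) (β η : ℝ) (hβ : 0 < β)
    (hlt : η < n / (4 * Real.pi * β)) :
    ∃ C : ℝ, 0 ≤ C ∧
      (∀ (Λ : Finset (ℤ × ℤ)) (x y : Λ), |boxCorr n β Λ x y| ≤ C * (1 + siteDist x y) ^ (-η)) ∧
      ∀ (M : ℕ) [NeZero M] (x y : ℤ × ℤ), 2 * |x.1 - y.1| ≤ M → 2 * |x.2 - y.2| ≤ M →
        |torusCorr n β M x y| ≤ C * (1 + siteDist x y) ^ (-η) := by
  have : NeZero n := ⟨by omega⟩
  have hpos : 0 < (n:ℝ) / (4 * Real.pi * β) := by
    have : (0:ℝ) < n := by exact_mod_cast (show 0 < n by omega)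
    positivity
  set η' := max η ((n:ℝ) / (4 * Real.pi * β) / 2) with hη'
  obtain ⟨C, hC0, hC⟩ := decay_main n (by omega) β η' hβ (lt_max_of_lt_right (by positivity))
    (max_lt hlt (by linarith))
  have hpow : ∀ x y : ℤ × ℤ,
      C * (1 + (((x.1 - y.1).natAbs + (x.2 - y.2).natAbs : ℕ) : ℝ)) ^ (-η') ≤
        C * (1 + siteDist x y) ^ (-η) := fun x y =>
    mul_le_mul_of_nonneg_left (rpow_dist_le (lt_max_of_lt_right (by positivity)) (le_max_left _ _) x y) hC0
  refine ⟨C, hC0, fun Λ x y => ?_, fun M _ x y h1 h2 => ?_⟩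
  · classical
    set B := Λ.sup (fun z => z.1.natAbs + z.2.natAbs) with hB
    have hb : ∀ z ∈ Λ, z.1.natAbs + z.2.natAbs ≤ B := fun z hz =>
      Finset.le_sup (f := fun z : ℤ × ℤ => z.1.natAbs + z.2.natAbs) hz
    have : NeZero (4 * B + 8) := ⟨by omega⟩
    have hlen : ∀ a b : Λ, len (castT (4 * B + 8) a - castT (4 * B + 8) b) =
        (a.1.1 - b.1.1).natAbs + (a.1.2 - b.1.2).natAbs := by
      intro a b
      have := hb a a.2
      have := hb b b.2
      exact len_cast _ _ (by omega) (by omega)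
    have hinj : Function.Injective fun a : Λ => castT (4 * B + 8) a := by
      intro a b h
      have := hlen a b
      simp only at h
      rw [h, sub_self] at this
      simp [len, av] at this
      exact Subtype.ext (Prod.ext (by omega) (by omega))
    let Bond := {p : Λ × Λ // (p.2 : ℤ × ℤ) = (p.1 : ℤ × ℤ) + (1, 0) ∨
      (p.2 : ℤ × ℤ) = (p.1 : ℤ × ℤ) + (0, 1)}
    let em : Bond → Tor (4 * B + 8) × Bool := fun p =>
      (castT _ p.1.1, decide ((p.1.2 : ℤ × ℤ) = (p.1.1 : ℤ × ℤ) + (0, 1)))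
    have hem : Function.Injective em := by
      rintro ⟨⟨a, b⟩, hp⟩ ⟨⟨a', b'⟩, hp'⟩ h
      simp only [em, Prod.mk.injEq, decide_eq_decide] at h
      obtain rfl := hinj h.1
      simp only at hp hp' h
      have : (b : ℤ × ℤ) = b' := by
        rcases hp with hp | hp <;> rcases hp' with hp' | hp' <;>
          first
          | exact hp.trans hp'.symm
          | (exfalso
             have hf := h.2
             simp only [hp, hp'] at hf
             simp [Prod.ext_iff] at hf)
      obtain rfl := Subtype.ext this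
      rfl
    have key := hC (4 * B + 8) Λ Bond (fun p => p.1.1) (fun p => p.1.2) (fun _ => β)
      (fun a => castT _ a) em hem (fun _ => rfl) (fun p => ?_) (fun _ => hβ.le) (fun _ => le_rfl) x y
    · have heq : boxCorr n β Λ x y = gav (bondEn (n := n) (fun p : Bond => p.1.1)
          (fun p : Bond => p.1.2) fun _ => β) (fun σ => ⟪(σ x).1, (σ y).1⟫) := by
        have hE : ∀ σ : Λ → Spin n, β * (∑ a : Λ, ∑ b : Λ,
            if (b : ℤ × ℤ) = (a : ℤ × ℤ) + (1, 0) ∨ (b : ℤ × ℤ) = (a : ℤ × ℤ) + (0, 1) then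
              ⟪(σ a).1, (σ b).1⟫ else 0) =
            bondEn (fun p : Bond => p.1.1) (fun p : Bond => p.1.2) (fun _ => β) σ := by
          intro σ
          rw [← Fintype.sum_prod_type', ← Finset.sum_filter, Finset.mul_sum, bondEn]
          exact (Finset.sum_subtype _ (fun p => by simp) _)
        simp only [boxCorr, hE, gav, part, refMeas]
      rw [heq]
      rw [hlen] at key
      exact key.trans (hpow x y)
    · obtain ⟨⟨a, b⟩, hp⟩ := p
      simp only at hp
      rcases hp with hp | hp <;>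
        obtain ⟨h1, h2⟩ := Prod.ext_iff.mp hp <;>
        simp only [Prod.fst_add, Prod.snd_add] at h1 h2 <;>
        simp [em, castT, step, Prod.ext_iff, h1, h2]
  · have key := hC M (Tor M) (Tor M × Bool) Prod.fst (fun w => w.1 + step w.2) (fun _ => β) id id
      Function.injective_id (fun _ => rfl) (fun _ => rfl) (fun _ => hβ.le) (fun _ => le_rfl)
      (castT M x) (castT M y)
    have heq : torusCorr n β M x y = gav (bondEn (n := n) (Prod.fst : Tor M × Bool → Tor M)
        (fun w => w.1 + step w.2) fun _ => β) (fun σ => ⟪(σ (castT M x)).1, (σ (castT M y)).1⟫) := by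
      have hE : ∀ σ : Tor M → Spin n, β * (∑ z : Tor M,
          (⟪(σ z).1, (σ (z + (1, 0))).1⟫ + ⟪(σ z).1, (σ (z + (0, 1))).1⟫)) =
          bondEn (Prod.fst : Tor M × Bool → Tor M) (fun w => w.1 + step w.2) (fun _ => β) σ := by
        intro σ
        rw [bondEn, Fintype.sum_prod_type (γ := ℝ) (α₁ := Tor M) (α₂ := Bool), Finset.mul_sum]
        refine Finset.sum_congr rfl fun z _ => ?_
        rw [Fintype.sum_bool]
        simp [step]
        ring
      simp only [torusCorr, hE, gav, part, refMeas, castT]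
    rw [heq]
    rw [Int.abs_eq_natAbs] at h1 h2
    rw [id, id, len_cast x y (by omega) (by omega)] at key
    exact key.trans (hpow x y)

end Vale.Agent.P163
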