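import Mathlib

/-! A clamped logarithm on the discrete torus and its Dirichlet energy. -/

open scoped BigOperators

namespace Vale.Agent.P163

/-- The discrete torus. -/
abbrev Tor (M : ℕ) := ZMod M × ZMod M

/-- Absolute value of the centred representative. -/
def av {M : ℕ} (u : ZMod M) : ℕ := u.valMinAbs.natAbs

/-- The two unit steps. -/
def step {M : ℕ} (d : Bool) : Tor M := if d then (0, 1) else (1, 0)

/-- The `l1` length on the torus. -/
def len {M : ℕ} (z : Tor M) : ℕ := av z.1 + av z.2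

variable {M : ℕ} [NeZero M]

omit [NeZero M] in
theorem av_add_le (u v : ZMod M) : av (u + v) ≤ av u + av v :=
  (ZMod.natAbs_valMinAbs_add_le u v).trans (Int.natAbs_add_le _ _)

omit [NeZero M] in
theorem av_neg (u : ZMod M) : av (-u) = av u := ZMod.natAbs_valMinAbs_neg u

theorem av_intCast_le (k : ℤ) : av (k : ZMod M) ≤ k.natAbs := by
  refine ZMod.natAbs_min_of_le_div_two M (k : ZMod M).valMinAbs k ?_ (ZMod.natAbs_valMinAbs_le _)
  simp

omit [NeZero M] in
theorem len_add_le (z w : Tor M) : len (z + w) ≤ len z + len w := by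
  have h1 := av_add_le z.1 w.1
  have h2 := av_add_le z.2 w.2
  simp only [len, Prod.fst_add, Prod.snd_add]
  omega

omit [NeZero M] in
theorem len_neg (z : Tor M) : len (-z) = len z := by simp [len, av_neg]

omit [NeZero M] in
theorem len_sub_comm (z w : Tor M) : len (z - w) = len (w - z) := by rw [← len_neg, neg_sub]

omit [NeZero M] in
theorem len_triangle (x y z : Tor M) : len (x - z) ≤ len (x - y) + len (y - z) := by
  simpa using len_add_le (x - y) (y - z)

theorem av_one_le : av (1 : ZMod M) ≤ 1 := by simpa using av_intCast_le (M := M) 1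

theorem len_step_le (d : Bool) : len (step (M := M) d) ≤ 1 := by
  cases d <;> simpa [step, len, av] using av_one_le (M := M)

theorem av_succ (u : ZMod M) : av (u + 1) ≤ av u + 1 ∧ av u ≤ av (u + 1) + 1 := by
  have h1 := av_one_le (M := M)
  refine ⟨(av_add_le u 1).trans (by omega), ?_⟩
  have := av_add_le (u + 1) (-1)
  rw [add_neg_cancel_right, av_neg] at this
  omega

theorem not_both_up (u : ZMod M) (hu : av u ≠ 0) : ¬ (av u < av (u + 1) ∧ av u < av (u - 1)) := by
  rintro ⟨h1, h2⟩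
  simp only [av] at *
  rcases lt_or_gt_of_ne (show u.valMinAbs ≠ 0 by omega) with hv | hv
  · have hc : u + 1 = ((u.valMinAbs + 1 : ℤ) : ZMod M) := by simp
    have := av_intCast_le (M := M) (u.valMinAbs + 1)
    rw [← hc] at this
    simp only [av] at this
    omega
  · have hc : u - 1 = ((u.valMinAbs - 1 : ℤ) : ZMod M) := by simp
    have := av_intCast_le (M := M) (u.valMinAbs - 1)
    rw [← hc] at this
    simp only [av] at this
    omega

/-- `(1/2) log (1 + a^2 + b^2)`. -/
noncomputable def lg (a b : ℕ) : ℝ := Real.log (1 + (a:ℝ) ^ 2 + (b:ℝ) ^ 2) / 2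

/-- The clamped logarithm of height `lg R 0`. -/
noncomputable def psi (R : ℕ) (z : Tor M) : ℝ := min (lg (av z.1) (av z.2)) (lg R 0)

/-- Its increment along an edge. -/
noncomputable def incr (R : ℕ) (z : Tor M) (d : Bool) : ℝ := psi R (z + step d) - psi R z

/-- The bound for a squared increment from the lower endpoint. -/
noncomputable def fb (R a b : ℕ) : ℝ :=
  if a ^ 2 + b ^ 2 < R ^ 2 then (((a:ℝ) + 1 / 2) / (1 + (a:ℝ) ^ 2 + (b:ℝ) ^ 2)) ^ 2 else 0

theorem fb_nonneg (R a b : ℕ) : 0 ≤ fb R a b := by unfold fb; split_ifs <;> positivity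

theorem lg_comm (a b : ℕ) : lg a b = lg b a := by unfold lg; ring_nf

theorem up_sq (R a b : ℕ) :
    (min (lg (a + 1) b) (lg R 0) - min (lg a b) (lg R 0)) ^ 2 ≤ fb R a b := by
  have hN : (0:ℝ) < 1 + (a:ℝ) ^ 2 + (b:ℝ) ^ 2 := by positivity
  have hmono : lg a b ≤ lg (a + 1) b := by
    unfold lg
    refine div_le_div_of_nonneg_right (Real.log_le_log hN ?_) two_pos.le
    push_cast; nlinarith [Nat.cast_nonneg (α := ℝ) a]
  by_cases hc : a ^ 2 + b ^ 2 < R ^ 2
  · rw [fb, if_pos hc]
    have hd : lg (a + 1) b - lg a b ≤ ((a:ℝ) + 1 / 2) / (1 + (a:ℝ) ^ 2 + (b:ℝ) ^ 2) := by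
      unfold lg
      push_cast
      rw [← sub_div, ← Real.log_div (by positivity) hN.ne', div_le_iff₀ two_pos]
      refine (Real.log_le_sub_one_of_pos (by positivity)).trans (le_of_eq ?_)
      field_simp
      ring
    have h0 : 0 ≤ min (lg (a + 1) b) (lg R 0) - min (lg a b) (lg R 0) :=
      sub_nonneg.mpr (min_le_min hmono le_rfl)
    refine pow_le_pow_left₀ h0 (le_trans ?_ hd) 2
    rcases le_total (lg a b) (lg R 0) with h | h
    · rw [min_eq_left h]; linarith [min_le_left (lg (a + 1) b) (lg R 0)]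
    · rw [min_eq_right h, min_eq_right (h.trans hmono)]; linarith
  · rw [fb, if_neg hc]
    have : lg R 0 ≤ lg a b := by
      unfold lg
      refine div_le_div_of_nonneg_right (Real.log_le_log (by positivity) ?_) two_pos.le
      have : ((R ^ 2 : ℕ) : ℝ) ≤ ((a ^ 2 + b ^ 2 : ℕ) : ℝ) := by exact_mod_cast not_lt.mp hc
      push_cast at this ⊢
      linarith
    rw [min_eq_right this, min_eq_right (this.trans hmono)]
    simp

theorem close_sq (R a a' b : ℕ) (h1 : a' ≤ a + 1) (h2 : a ≤ a' + 1) :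
    (min (lg a' b) (lg R 0) - min (lg a b) (lg R 0)) ^ 2 ≤
      (if a < a' then fb R a b else 0) + (if a' < a then fb R a' b else 0) := by
  rcases lt_trichotomy a a' with h | h | h
  · rw [if_pos h, if_neg (by omega), add_zero, show a' = a + 1 by omega]
    exact up_sq R a b
  · subst h; simp
  · rw [if_pos h, if_neg (by omega), zero_add, show a = a' + 1 by omega, ← neg_sub, neg_sq]
    exact up_sq R a' b

/-- Coordinate along the step direction and the other one. -/
def co (d : Bool) (z : Tor M) : ZMod M × ZMod M := if d then (z.2, z.1) else (z.1, z.2)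

omit [NeZero M] in
theorem psi_co (R : ℕ) (z : Tor M) (d : Bool) :
    psi R z = min (lg (av (co d z).1) (av (co d z).2)) (lg R 0) := by
  cases d <;> simp [psi, co, lg_comm]

omit [NeZero M] in
theorem co_step (z : Tor M) (d : Bool) : co d (z + step d) = ((co d z).1 + 1, (co d z).2) := by
  cases d <;> simp [co, step, Prod.fst_add, Prod.snd_add]

theorem incr_sq (R : ℕ) (z : Tor M) (d : Bool) :
    incr R z d ^ 2 ≤
      (if av (co d z).1 < av ((co d z).1 + 1) then fb R (av (co d z).1) (av (co d z).2) else 0) +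
      (if av ((co d z).1 + 1) < av (co d z).1 then fb R (av ((co d z).1 + 1)) (av (co d z).2)
        else 0) := by
  rw [incr, psi_co R _ d, psi_co R z d, co_step]
  exact close_sq R _ _ _ (av_succ _).1 (av_succ _).2

/-- Multiplicity weight. -/
theorem sum_av_le (R : ℕ) (G : ℕ → ℝ) (hG : ∀ a, 0 ≤ G a) (hR : ∀ a, R < a → G a = 0) :
    ∑ u : ZMod M, (if av u = 0 then 2 else 1) * G (av u) ≤ 2 * ∑ a ∈ Finset.range (R + 1), G a := by
  classical
  rw [← Finset.sum_fiberwise_of_maps_to (t := Finset.range (M + R + 1)) (g := av)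
    (fun u _ => Finset.mem_range.mpr (by
      have := ZMod.natAbs_valMinAbs_le u
      simp only [av]; omega)), Finset.mul_sum]
  have hinj := ZMod.injective_valMinAbs (n := M)
  calc ∑ a ∈ Finset.range (M + R + 1), ∑ u ∈ Finset.univ.filter (fun u : ZMod M => av u = a),
        (if av u = 0 then 2 else 1) * G (av u)
      ≤ ∑ a ∈ Finset.range (M + R + 1), 2 * G a := by
        refine Finset.sum_le_sum fun a _ => ?_
        have hrw : ∀ u ∈ Finset.univ.filter (fun u : ZMod M => av u = a),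
            (if av u = 0 then 2 else 1) * G (av u) = (if a = 0 then 2 else 1) * G a := by
          intro u hu
          simp only [Finset.mem_filter, Finset.mem_univ, true_and] at hu
          rw [hu]
        rw [Finset.sum_congr rfl hrw, Finset.sum_const, nsmul_eq_mul, ← mul_assoc]
        refine mul_le_mul_of_nonneg_right ?_ (hG a)
        have hcard : (Finset.univ.filter (fun u : ZMod M => av u = a)).card ≤
            ({(a:ℤ), -(a:ℤ)} : Finset ℤ).card := by
          refine Finset.card_le_card_of_injOn ZMod.valMinAbs (fun u hu => ?_) hinj.injOn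
          replace hu : u.valMinAbs.natAbs = a := (Finset.mem_filter.mp hu).2
          simp only [Finset.coe_insert, Finset.coe_singleton, Set.mem_insert_iff,
            Set.mem_singleton_iff]
          omega
        by_cases ha : a = 0
        · subst ha
          simp at hcard ⊢
          have : ((Finset.univ.filter (fun u : ZMod M => av u = 0)).card : ℝ) ≤ 1 := by
            exact_mod_cast hcard
          linarith
        · rw [if_neg ha, mul_one]
          exact_mod_cast hcard.trans Finset.card_le_two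
    _ = ∑ a ∈ Finset.range (R + 1), 2 * G a := by
        symm
        refine Finset.sum_subset (Finset.range_mono (by omega)) fun a _ ha => ?_
        rw [hR a (by simp only [Finset.mem_range] at ha; omega), mul_zero]

theorem fb_eq_zero (R a b : ℕ) (h : R < a ∨ R < b) : fb R a b = 0 := by
  rw [fb, if_neg]
  rcases h with h | h <;> nlinarith

theorem sum_incr_sq_dir (R : ℕ) (d : Bool) :
    ∑ z : Tor M, incr R z d ^ 2 ≤
      4 * ∑ a ∈ Finset.range (R + 1), ∑ b ∈ Finset.range (R + 1), fb R a b := by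
  have e : ∑ z : Tor M, incr R z d ^ 2 ≤ ∑ w : ZMod M × ZMod M,
      (if av w.1 = 0 then 2 else 1) * fb R (av w.1) (av w.2) := by
    refine (Finset.sum_le_sum fun z _ => incr_sq R z d).trans ?_
    rw [Finset.sum_add_distrib]
    let E : Tor M ≃ ZMod M × ZMod M :=
      ⟨co d, co d, fun z => by cases d <;> rfl, fun z => by cases d <;> rfl⟩
    have h1 := E.sum_comp (fun w => if av w.1 < av (w.1 + 1) then fb R (av w.1) (av w.2) else 0)
    have h2 := E.sum_comp (fun w => if av (w.1 + 1) < av w.1 then fb R (av (w.1 + 1)) (av w.2) else 0)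
    simp only [E, Equiv.coe_fn_mk] at h1 h2
    rw [h1, h2]
    have h3 := ((Equiv.subRight (1 : ZMod M)).prodCongr (Equiv.refl (ZMod M))).sum_comp
      (fun w => if av (w.1 + 1) < av w.1 then fb R (av (w.1 + 1)) (av w.2) else 0)
    simp only [Equiv.prodCongr_apply, Prod.map_fst, Prod.map_snd, Equiv.subRight_apply,
      Equiv.refl_apply, sub_add_cancel] at h3
    rw [← h3, ← Finset.sum_add_distrib]
    refine Finset.sum_le_sum fun w _ => ?_
    have hf := fb_nonneg R (av w.1) (av w.2)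
    by_cases h0 : av w.1 = 0
    · rw [if_pos h0]; split_ifs <;> linarith
    · rw [if_neg h0]
      have := not_both_up w.1 h0
      split_ifs with ha hb <;> first | linarith | exact absurd ⟨ha, hb⟩ this
  refine e.trans ?_
  rw [Fintype.sum_prod_type]
  calc ∑ u : ZMod M, ∑ v : ZMod M, (if av u = 0 then 2 else 1) * fb R (av u) (av v)
      ≤ ∑ u : ZMod M, (if av u = 0 then 2 else 1) *
          (2 * ∑ b ∈ Finset.range (R + 1), fb R (av u) b) := by
        refine Finset.sum_le_sum fun u _ => ?_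
        rw [← Finset.mul_sum]
        refine mul_le_mul_of_nonneg_left ?_ (by split_ifs <;> norm_num)
        refine le_trans (Finset.sum_le_sum fun v _ => ?_) (sum_av_le (M := M) R
          (fun b => fb R (av u) b) (fun b => fb_nonneg _ _ _) fun b hb => fb_eq_zero _ _ _ (Or.inr hb))
        split_ifs <;> linarith [fb_nonneg R (av u) (av v)]
    _ ≤ 2 * ∑ a ∈ Finset.range (R + 1), 2 * ∑ b ∈ Finset.range (R + 1), fb R a b := by
        refine sum_av_le (M := M) R (fun a => 2 * ∑ b ∈ Finset.range (R + 1), fb R a b)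
          (fun a => mul_nonneg two_pos.le (Finset.sum_nonneg fun b _ => fb_nonneg _ _ _))
          fun a ha => ?_
        rw [Finset.sum_eq_zero fun b _ => fb_eq_zero R a b (Or.inl ha), mul_zero]
    _ = _ := by rw [← Finset.mul_sum]; ring

/-- The symmetric lattice weight. -/
noncomputable def gw (a b : ℕ) : ℝ :=
  1 / (1 + (a:ℝ) ^ 2 + (b:ℝ) ^ 2) + ((a:ℝ) + b) / (1 + (a:ℝ) ^ 2 + (b:ℝ) ^ 2) ^ 2

theorem fb_symm_le (R a b : ℕ) : fb R a b + fb R b a ≤ gw a b := by
  have hN : (0:ℝ) < 1 + (a:ℝ) ^ 2 + (b:ℝ) ^ 2 := by positivity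
  have e : ∀ x y : ℕ, fb R x y ≤ (((x:ℝ) + 1 / 2) / (1 + (x:ℝ) ^ 2 + (y:ℝ) ^ 2)) ^ 2 := by
    intro x y; unfold fb; split_ifs
    · exact le_rfl
    · positivity
  refine (add_le_add (e a b) (e b a)).trans ?_
  rw [gw, show 1 + (b:ℝ) ^ 2 + (a:ℝ) ^ 2 = 1 + (a:ℝ) ^ 2 + (b:ℝ) ^ 2 by ring]
  rw [div_pow, div_pow, ← add_div]
  rw [show 1 / (1 + (a:ℝ) ^ 2 + (b:ℝ) ^ 2) =
    (1 + (a:ℝ) ^ 2 + (b:ℝ) ^ 2) / (1 + (a:ℝ) ^ 2 + (b:ℝ) ^ 2) ^ 2 by field_simp, ← add_div]
  exact div_le_div_of_nonneg_right (by nlinarith) (by positivity)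

theorem arctan_step (k j : ℕ) (hk : 0 < k) :
    1 / ((k:ℝ) ^ 2 + ((j:ℝ) + 1) ^ 2) ≤
      (Real.arctan (((j:ℝ) + 1) / k) - Real.arctan ((j:ℝ) / k)) / k := by
  have hk' : (0:ℝ) < k := by exact_mod_cast hk
  set a := (j:ℝ) / k
  set b := ((j:ℝ) + 1) / k
  have hab : a < b := by unfold a b; gcongr; linarith
  have ha : 0 ≤ a := by positivity
  obtain ⟨c, hc, hceq⟩ := exists_hasDerivAt_eq_slope Real.arctan (fun x => 1 / (1 + x ^ 2)) hab
    Real.continuous_arctan.continuousOn (fun x _ => Real.hasDerivAt_arctan x)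
  have h2 : 1 / (1 + b ^ 2) ≤ 1 / (1 + c ^ 2) :=
    one_div_le_one_div_of_le (by positivity) (by nlinarith [hc.1, hc.2])
  have hba : b - a = 1 / k := by unfold a b; field_simp; ring
  rw [hceq, hba, div_div_eq_mul_div, div_one] at h2
  calc 1 / ((k:ℝ) ^ 2 + ((j:ℝ) + 1) ^ 2) = (1 / (1 + b ^ 2)) / k ^ 2 := by
        unfold b; field_simp
    _ ≤ ((Real.arctan b - Real.arctan a) * k) / k ^ 2 :=
        div_le_div_of_nonneg_right h2 (by positivity)
    _ = (Real.arctan b - Real.arctan a) / k := by field_simp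

theorem row_le (k : ℕ) (hk : 0 < k) :
    ∑ j ∈ Finset.range (k + 1), gw k j ≤ Real.pi / 4 / k + 5 / (k:ℝ) ^ 2 := by
  have hk' : (1:ℝ) ≤ k := by exact_mod_cast hk
  have h1 : ∀ j ∈ Finset.range (k + 1), gw k j ≤ 1 / ((k:ℝ) ^ 2 + (j:ℝ) ^ 2) + 2 / (k:ℝ) ^ 3 := by
    intro j hj
    have hjk : (j:ℝ) ≤ k := by exact_mod_cast Nat.lt_succ_iff.mp (Finset.mem_range.mp hj)
    refine add_le_add (one_div_le_one_div_of_le (by positivity) (by linarith)) ?_
    calc ((k:ℝ) + j) / (1 + (k:ℝ) ^ 2 + (j:ℝ) ^ 2) ^ 2 ≤ (2 * k) / ((k:ℝ) ^ 2) ^ 2 :=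
          div_le_div₀ (by positivity) (by linarith) (by positivity) (by gcongr; nlinarith)
      _ = 2 / (k:ℝ) ^ 3 := by field_simp
  refine (Finset.sum_le_sum h1).trans ?_
  rw [Finset.sum_add_distrib, Finset.sum_range_succ' (fun j => 1 / ((k:ℝ) ^ 2 + (j:ℝ) ^ 2))]
  have h2 : ∑ j ∈ Finset.range k, 1 / ((k:ℝ) ^ 2 + ((j + 1 : ℕ):ℝ) ^ 2) ≤ Real.pi / 4 / k := by
    refine (Finset.sum_le_sum (g := fun j : ℕ => Real.arctan (((j + 1 : ℕ):ℝ) / k) / k -
      Real.arctan ((j:ℝ) / k) / k) fun j _ => ?_).trans (le_of_eq ?_)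
    · push_cast; rw [← sub_div]; exact arctan_step k j hk
    · rw [Finset.sum_range_sub (fun j : ℕ => Real.arctan ((j:ℝ) / k) / k),
        div_self (by positivity), Real.arctan_one]
      simp
  have h3 : ((k + 1 : ℕ) : ℝ) * (2 / (k:ℝ) ^ 3) ≤ 4 / (k:ℝ) ^ 2 := by
    push_cast
    rw [mul_div_assoc', div_le_div_iff₀ (by positivity) (by positivity)]
    nlinarith [pow_pos (lt_of_lt_of_le one_pos hk') 2]
  simp only [Finset.sum_const, Finset.card_range, nsmul_eq_mul, Nat.cast_zero] at *
  have : 1 / ((k:ℝ) ^ 2 + (0:ℝ) ^ 2) + 4 / (k:ℝ) ^ 2 = 5 / (k:ℝ) ^ 2 := by ring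
  linarith

theorem gw_comm (a b : ℕ) : gw a b = gw b a := by unfold gw; ring_nf

theorem square_sum_le (R : ℕ) :
    ∑ a ∈ Finset.range (R + 1), ∑ b ∈ Finset.range (R + 1), gw a b ≤
      1 + Real.pi / 2 * (harmonic R : ℝ) + 20 * (1 - 1 / ((R:ℝ) + 1)) := by
  induction R with
  | zero => simp [gw]
  | succ R ih =>
    have hk := row_le (R + 1) (Nat.succ_pos R)
    rw [Finset.sum_range_succ] at hk
    have hnn : 0 ≤ gw (R + 1) (R + 1) := by unfold gw; positivity
    have e : ∑ a ∈ Finset.range (R + 2), ∑ b ∈ Finset.range (R + 2), gw a b =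
        (∑ a ∈ Finset.range (R + 1), ∑ b ∈ Finset.range (R + 1), gw a b) +
          2 * (∑ b ∈ Finset.range (R + 1), gw (R + 1) b) + gw (R + 1) (R + 1) := by
      rw [Finset.sum_range_succ]
      simp only [Finset.sum_range_succ _ (R + 1), Finset.sum_add_distrib,
        fun a => gw_comm a (R + 1)]
      ring
    rw [e, harmonic_succ]
    push_cast at hk ⊢
    have key : 10 / ((R:ℝ) + 1) ^ 2 ≤ 20 * (1 / ((R:ℝ) + 1) - 1 / ((R:ℝ) + 1 + 1)) := by
      rw [div_sub_div _ _ (by positivity) (by positivity), mul_div_assoc',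
        div_le_div_iff₀ (by positivity) (by positivity)]
      nlinarith
    have e2 : 2 * (Real.pi / 4 / ((R:ℝ) + 1) + 5 / ((R:ℝ) + 1) ^ 2) =
        Real.pi / 2 * ((R:ℝ) + 1)⁻¹ + 10 / ((R:ℝ) + 1) ^ 2 := by ring
    nlinarith [Real.pi_pos]

/-- The Dirichlet energy of one clamped logarithm. -/
theorem energy_le (R : ℕ) :
    ∑ z : Tor M, ∑ d : Bool, incr R z d ^ 2 ≤ 2 * Real.pi * Real.log R + 92 := by
  rw [Finset.sum_comm, Fintype.sum_bool]
  refine (add_le_add (sum_incr_sq_dir R true) (sum_incr_sq_dir R false)).trans ?_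
  have h1 : 4 * ∑ a ∈ Finset.range (R + 1), ∑ b ∈ Finset.range (R + 1), fb R a b +
      4 * ∑ a ∈ Finset.range (R + 1), ∑ b ∈ Finset.range (R + 1), fb R a b ≤
      4 * ∑ a ∈ Finset.range (R + 1), ∑ b ∈ Finset.range (R + 1), gw a b := by
    rw [← mul_add]
    refine mul_le_mul_of_nonneg_left ?_ (by norm_num)
    nth_rw 2 [Finset.sum_comm]
    rw [← Finset.sum_add_distrib]
    simp only [← Finset.sum_add_distrib]
    exact Finset.sum_le_sum fun a _ => Finset.sum_le_sum fun b _ => fb_symm_le R a b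
  refine h1.trans ((mul_le_mul_of_nonneg_left (square_sum_le R) (by norm_num)).trans ?_)
  have hh : (harmonic R : ℝ) ≤ 1 + Real.log R := harmonic_le_one_add_log R
  have hR : (0:ℝ) ≤ 1 / ((R:ℝ) + 1) := by positivity
  nlinarith [Real.pi_le_four, Real.pi_pos, mul_le_mul_of_nonneg_left hh (by positivity : (0:ℝ) ≤ 2 * Real.pi)]

theorem incr_eq_zero (R : ℕ) (z : Tor M) (d : Bool) (h : 2 * R + 1 < len z) : incr R z d = 0 := by
  have hlen : len z = av (co d z).1 + av (co d z).2 := by cases d <;> simp [len, co, add_comm]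
  have h1 := av_succ (co d z).1
  have hs := incr_sq R z d
  rw [show fb R (av (co d z).1) (av (co d z).2) = 0 from
      fb_eq_zero _ _ _ (by omega),
    show fb R (av ((co d z).1 + 1)) (av (co d z).2) = 0 from fb_eq_zero _ _ _ (by omega)] at hs
  simp only [ite_self, add_zero] at hs
  exact pow_eq_zero_iff two_ne_zero |>.mp (le_antisymm hs (sq_nonneg _))

theorem incr_small (R m : ℕ) (z : Tor M) (d : Bool) (h : m + 1 ≤ len z) (hm : 0 < m) :
    incr R z d ^ 2 ≤ (3 / (m:ℝ)) ^ 2 := by
  have hlen : len z = av (co d z).1 + av (co d z).2 := by cases d <;> simp [len, co, add_comm]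
  have h1 := av_succ (co d z).1
  have key : ∀ a b : ℕ, m ≤ a + b → fb R a b ≤ (3 / (m:ℝ)) ^ 2 := by
    intro a b hab
    unfold fb; split_ifs
    · refine pow_le_pow_left₀ (by positivity) ?_ 2
      rw [div_le_div_iff₀ (by positivity) (by exact_mod_cast hm)]
      have : (m:ℝ) ≤ a + b := by exact_mod_cast hab
      nlinarith [sq_nonneg ((a:ℝ) - b), sq_nonneg ((a:ℝ) - 1), sq_nonneg ((b:ℝ) - 1),
        Nat.cast_nonneg (α := ℝ) a, Nat.cast_nonneg (α := ℝ) b]
    · positivity
  refine (incr_sq R z d).trans ?_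
  split_ifs with ha hb hb
  · omega
  · rw [add_zero]; exact key _ _ (by omega)
  · rw [zero_add]; exact key _ _ (by omega)
  · rw [add_zero]; positivity

theorem incr_le_one (R : ℕ) (z : Tor M) (d : Bool) : incr R z d ^ 2 ≤ 1 := by
  have key : ∀ a b : ℕ, fb R a b ≤ 1 := by
    intro a b
    unfold fb; split_ifs
    · refine pow_le_one₀ (by positivity) ?_
      rw [div_le_one (by positivity)]
      nlinarith [sq_nonneg ((a:ℝ) - 1 / 2)]
    · norm_num
  refine (incr_sq R z d).trans ?_
  split_ifs with ha hb hb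
  · omega
  · rw [add_zero]; exact key _ _
  · rw [zero_add]; exact key _ _
  · norm_num

omit [NeZero M] in
theorem psi_zero (R : ℕ) : psi R (0 : Tor M) = 0 := by
  simp [psi, av, lg]
  exact div_nonneg (Real.log_nonneg (by linarith [sq_nonneg (R:ℝ)])) two_pos.le

omit [NeZero M] in
theorem psi_far (R : ℕ) (z : Tor M) (h : 2 * R ≤ len z) : psi R z = lg R 0 := by
  refine min_eq_right (div_le_div_of_nonneg_right (Real.log_le_log (by positivity) ?_) two_pos.le)
  have : R ≤ av z.1 ∨ R ≤ av z.2 := by unfold len at h; omega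
  rcases this with h' | h' <;>
  · have : (R:ℝ) ^ 2 ≤ _ ^ 2 := pow_le_pow_left₀ (by positivity) (Nat.cast_le.mpr h') 2
    push_cast
    nlinarith [sq_nonneg ((av z.1 : ℝ)), sq_nonneg ((av z.2 : ℝ))]

theorem log_le_lg (R : ℕ) (hR : 1 ≤ R) : Real.log R ≤ lg R 0 := by
  have h : (0:ℝ) < R := by exact_mod_cast hR
  rw [lg, le_div_iff₀ two_pos, mul_comm, ← Real.log_rpow h]
  refine Real.log_le_log (by positivity) ?_
  simp

/-- The number of torus points within `l1` distance `L` of a point. -/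
theorem card_ball_le (L : ℕ) (x : Tor M) :
    (Finset.univ.filter fun z : Tor M => len (z - x) ≤ L).card ≤ (2 * L + 1) * (2 * L + 1) := by
  refine (Finset.card_le_card_of_injOn (fun z => ((z - x).1.valMinAbs, (z - x).2.valMinAbs))
    (t := Finset.Icc (-(L:ℤ)) L ×ˢ Finset.Icc (-(L:ℤ)) L) ?_ ?_).trans (le_of_eq ?_)
  · intro z hz
    replace hz : len (z - x) ≤ L := (Finset.mem_filter.mp hz).2
    simp only [len, av] at hz
    simp only [Finset.coe_product, Finset.coe_Icc, Set.mem_prod, Set.mem_Icc]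
    omega
  · intro z _ w _ h
    simp only [Prod.mk.injEq, ZMod.valMinAbs_inj] at h
    exact sub_left_inj.mp (Prod.ext h.1 h.2)
  · rw [Finset.card_product, Int.card_Icc,
      show ((L:ℤ) + 1 - -(L:ℤ)).toNat = 2 * L + 1 by omega]

end Vale.Agent.P163
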