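import Vale.Agent.P163.Plane
import Vale.Agent.P163.Torus

/-! Power decay with exponent linear in the number of spin components. -/

open MeasureTheory
open scoped RealInnerProductSpace

namespace Vale.Agent.P163

theorem cosh_sub_one_le {δ u : ℝ} (h : δ ^ 2 / 2 ≤ u) :
    Real.cosh δ - 1 ≤ δ ^ 2 / 2 * Real.exp u := by
  have h1 := Real.cosh_le_exp_half_sq δ
  have h3 : 1 ≤ Real.exp (δ ^ 2 / 2) * Real.exp (-(δ ^ 2 / 2)) := by rw [← Real.exp_add]; simp
  have h2 : Real.exp (δ ^ 2 / 2) * (1 - δ ^ 2 / 2) ≤ 1 := by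
    calc Real.exp (δ ^ 2 / 2) * (1 - δ ^ 2 / 2)
        ≤ Real.exp (δ ^ 2 / 2) * Real.exp (-(δ ^ 2 / 2)) :=
          mul_le_mul_of_nonneg_left (by linarith [Real.add_one_le_exp (-(δ ^ 2 / 2))])
            (Real.exp_pos _).le
      _ = 1 := by rw [← Real.exp_add]; simp
  calc Real.cosh δ - 1 ≤ δ ^ 2 / 2 * Real.exp (δ ^ 2 / 2) := by nlinarith
    _ ≤ δ ^ 2 / 2 * Real.exp u :=
      mul_le_mul_of_nonneg_left (Real.exp_le_exp.mpr h) (by positivity)

theorem sum_le_of_em {M : ℕ} [NeZero M] {ι : Type*} [Fintype ι] {em : ι → Tor M × Bool}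
    (hem : Function.Injective em) (F : Tor M × Bool → ℝ) (hF : ∀ w, 0 ≤ F w) :
    ∑ e, F (em e) ≤ ∑ w, F w := by
  classical
  rw [← Finset.sum_image (g := em) (fun a _ b _ h => hem h)]
  exact Finset.sum_le_sum_of_subset_of_nonneg (Finset.subset_univ _) fun w _ _ => hF w

theorem card_edges_le {M : ℕ} [NeZero M] {ι : Type*} [Fintype ι] {em : ι → Tor M × Bool}
    (hem : Function.Injective em) (L : ℕ) (c : Tor M) :
    ((Finset.univ.filter fun e => len ((em e).1 - c) ≤ L).card : ℝ) ≤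
      2 * ((2 * (L:ℝ) + 1) * (2 * L + 1)) := by
  have h : (Finset.univ.filter fun e => len ((em e).1 - c) ≤ L).card ≤
      ((Finset.univ.filter fun z : Tor M => len (z - c) ≤ L) ×ˢ
        (Finset.univ : Finset Bool)).card := by
    refine Finset.card_le_card_of_injOn em (fun e he => ?_) hem.injOn
    exact Finset.mem_product.mpr ⟨Finset.mem_filter.mpr
      ⟨Finset.mem_univ _, (Finset.mem_filter.mp he).2⟩, Finset.mem_univ _⟩
  rw [Finset.card_product, Finset.card_univ, Fintype.card_bool] at h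
  have h2 := h.trans (Nat.mul_le_mul_right 2 (card_ball_le L c))
  calc _ ≤ (((2 * L + 1) * (2 * L + 1) * 2 : ℕ) : ℝ) := by exact_mod_cast h2
    _ = _ := by push_cast; ring

/-- The cutoff field. -/
noncomputable def hcut {M : ℕ} (L : ℕ) (z0 w : Tor M) : ℝ :=
  Real.pi / 4 * min 1 ((lg L 0 - psi L (w - z0)) / (lg L 0 - lg 1 0))

theorem lg_one_le : lg 1 0 ≤ 1 := by
  unfold lg
  rw [div_le_iff₀ two_pos]
  refine (Real.log_le_sub_one_of_pos (by positivity)).trans ?_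
  norm_num

theorem hcut_one {M : ℕ} [NeZero M] (L : ℕ) (hL : 0 < lg L 0 - lg 1 0) (z0 w : Tor M)
    (hw : len (w - z0) ≤ 1) : hcut L z0 w = Real.pi / 4 := by
  have hp : psi L (w - z0) ≤ lg 1 0 := by
    refine (min_le_left _ _).trans ?_
    unfold len at hw
    rcases Nat.le_one_iff_eq_zero_or_eq_one.mp hw with h | h
    · rw [show av (w - z0).1 = 0 by omega, show av (w - z0).2 = 0 by omega]
      unfold lg; simp
      exact div_nonneg (Real.log_nonneg (by norm_num)) two_pos.le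
    · rcases Nat.add_eq_one_iff.mp h with ⟨a, b⟩ | ⟨a, b⟩
      · rw [a, b, lg_comm]
      · rw [a, b]
  rw [hcut, min_eq_left ((one_le_div hL).mpr (by linarith)), mul_one]

theorem hcut_zero {M : ℕ} [NeZero M] (L : ℕ) (z0 w : Tor M) (hw : 2 * L ≤ len (w - z0)) :
    hcut L z0 w = 0 := by
  simp [hcut, psi_far L _ hw]

theorem hcut_sq {M : ℕ} [NeZero M] (L : ℕ) (z0 z : Tor M) (d : Bool) :
    (hcut L z0 (z + step d) - hcut L z0 z) ^ 2 ≤
      incr L (z - z0) d ^ 2 / (lg L 0 - lg 1 0) ^ 2 := by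
  have hpi : (Real.pi / 4) ^ 2 ≤ 1 := by nlinarith [Real.pi_pos, Real.pi_le_four]
  rw [hcut, hcut, ← mul_sub, mul_pow, ← div_pow]
  refine (mul_le_of_le_one_left (sq_nonneg _) hpi).trans ?_
  rw [show z + step d - z0 = (z - z0) + step d by abel, incr]
  refine sq_le_sq.mpr ?_
  refine (abs_min_sub_min_le_max _ _ _ _).trans ?_
  rw [sub_self, abs_zero, max_eq_right (abs_nonneg _), ← sub_div, abs_div, abs_div]
  refine div_le_div_of_nonneg_right (le_of_eq ?_) (abs_nonneg _)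
  rw [← abs_neg]; congr 1; ring

theorem mw_radius (β η : ℝ) (hβ : 0 < β) (hη : 0 < η) : ∃ L : ℕ, 1 ≤ L ∧
    0 < lg L 0 - lg 1 0 ∧
    β / 2 * ((2 * Real.pi * Real.log L + 92) / (lg L 0 - lg 1 0) ^ 2) ≤ η ^ 2 / 2 := by
  set X : ℝ := max 4 (212 * β / η ^ 2) with hX
  set L : ℕ := ⌈Real.exp X⌉₊ with hLdef
  have hLX : Real.exp X ≤ L := Nat.le_ceil _
  have hlogL : X ≤ Real.log L := by
    rw [← Real.log_exp X]; exact Real.log_le_log (Real.exp_pos _) hLX
  have hL1 : 1 ≤ L := by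
    have : (0:ℝ) < L := lt_of_lt_of_le (Real.exp_pos _) hLX
    exact_mod_cast this
  have hX4 : 4 ≤ X := le_max_left _ _
  have hG : Real.log L / 2 ≤ lg L 0 - lg 1 0 := by
    linarith [log_le_lg L hL1, lg_one_le]
  have hGpos : 0 < lg L 0 - lg 1 0 := by linarith
  have hMW1 : β / 2 * ((2 * Real.pi * Real.log L + 92) / (lg L 0 - lg 1 0) ^ 2) ≤ η ^ 2 / 2 := by
    set Y := Real.log L
    have hY : 4 ≤ Y := by linarith
    have hp : 2 * Real.pi * Y + 92 ≤ 53 * Y := by nlinarith [Real.pi_le_four]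
    have hq : Y ^ 2 / 4 ≤ (lg L 0 - lg 1 0) ^ 2 := by nlinarith
    have h1 : (2 * Real.pi * Y + 92) / (lg L 0 - lg 1 0) ^ 2 ≤ 53 * Y / (Y ^ 2 / 4) :=
      div_le_div₀ (by positivity) hp (by positivity) hq
    have h2 : 53 * Y / (Y ^ 2 / 4) = 212 / Y := by field_simp; ring
    have h3 : 212 * β / η ^ 2 ≤ Y := (le_max_right _ _).trans hlogL
    rw [div_le_iff₀ (by positivity)] at h3
    calc β / 2 * ((2 * Real.pi * Y + 92) / (lg L 0 - lg 1 0) ^ 2) ≤ β / 2 * (212 / Y) :=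
          mul_le_mul_of_nonneg_left (h1.trans h2.le) (by positivity)
      _ = 106 * β / Y := by ring
      _ ≤ η ^ 2 / 2 := by rw [div_le_iff₀ (by linarith)]; linarith
  exact ⟨L, hL1, hGpos, hMW1⟩

theorem small_params (η₀ β η θ NL : ℝ) (hβ : 0 < β) (hη : 0 < η) (hθ : 0 < θ) (hNL0 : 0 < NL) :
    ∃ (u0 : ℝ) (Q : ℕ), 0 < u0 ∧ 0 < Q ∧ 18 * η₀ ^ 2 / (Q:ℝ) ^ 2 ≤ u0 ∧ u0 ≤ 1 ∧ u0 ≤ θ / 2 ∧
      u0 ≤ η ^ 2 / (2 * (2 * β * 3) * NL) := by
  set u0 : ℝ := min (min 1 (θ / 2)) (η ^ 2 / (2 * (2 * β * 3) * NL)) with hu0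
  have hu0pos : 0 < u0 := by rw [hu0]; positivity
  set Q : ℕ := ⌈18 * η₀ ^ 2 / u0⌉₊ + 1 with hQdef
  have hQ : 18 * η₀ ^ 2 / (Q:ℝ) ^ 2 ≤ u0 := by
    have h1 : 18 * η₀ ^ 2 / u0 ≤ Q := by
      rw [hQdef]; push_cast; linarith [Nat.le_ceil (18 * η₀ ^ 2 / u0)]
    have hq1 : (1:ℝ) ≤ Q := by rw [hQdef]; push_cast; simp
    rw [div_le_iff₀ hu0pos] at h1
    rw [div_le_iff₀ (by positivity)]
    nlinarith [mul_le_mul_of_nonneg_left hq1 (show (0:ℝ) ≤ Q * u0 by positivity)]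
  exact ⟨u0, Q, hu0pos, by omega, hQ, (min_le_left _ _).trans (min_le_left _ _),
    (min_le_left _ _).trans (min_le_right _ _), min_le_right _ _⟩

theorem far_weight {n M : ℕ} [NeZero n] [NeZero M] {V ι : Type} [Fintype V] [Fintype ι]
    (src tgt : ι → V) (J a : ι → ℝ) (pos : V → Tor M) (em : ι → Tor M × Bool)
    (hem : Function.Injective em) (hsrc : ∀ e, pos (src e) = (em e).1)
    (htgt : ∀ e, pos (tgt e) = (em e).1 + step (em e).2) (hJ0 : ∀ e, 0 ≤ J e)
    {β : ℝ} (hJβ : ∀ e, J e ≤ β) (hβ : 0 < β) (ha0 : ∀ e, 0 ≤ a e) {i0 i1 : Fin n} (h01 : i0 ≠ i1)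
    {η u0 : ℝ} (hη : 0 < η) (hu0pos : 0 < u0) {L Q R0 : ℕ} (hR0 : R0 = Q + 2 * L + 1)
    (hGpos : 0 < lg L 0 - lg 1 0)
    (hMW1 : β / 2 * ((2 * Real.pi * Real.log L + 92) / (lg L 0 - lg 1 0) ^ 2) ≤ η ^ 2 / 2)
    {NL : ℝ} (hNL : NL = 2 * ((2 * ((2 * L : ℕ) : ℝ) + 1) * (2 * ((2 * L : ℕ) : ℝ) + 1)))
    (hu3 : u0 ≤ η ^ 2 / (2 * (2 * β * 3) * NL))
    (px py : Tor M) (hsmall : ∀ e, Q + 1 ≤ len ((em e).1 - px) → Q + 1 ≤ len ((em e).1 - py) →
      a e ≤ β * (u0 * 3))
    (e0 : ι) (hx : R0 < len ((em e0).1 - px)) (hy : R0 < len ((em e0).1 - py)) :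
    gav (tiltEn src tgt J i0 i1 a) (fun σ => planeG i0 i1 (σ (src e0)).1 (σ (tgt e0)).1)
      ≤ 2 / n + 6 * η := by
  have hNL0 : 0 < NL := by rw [hNL]; positivity
  let h : V → ℝ := fun v => hcut L (em e0).1 (pos v)
  refine plane_le src tgt hJ0 ha0 h01 (src e0) (tgt e0) h ?_ ?_ hη ?_
  · exact hcut_one L hGpos _ _ (by simp [hsrc, len, av])
  · refine hcut_one L hGpos _ _ ?_
    rw [htgt, add_sub_cancel_left]; exact len_step_le _
  rw [Finset.sum_add_distrib]
  have hb : ∑ e, J e * ((h (tgt e) - h (src e)) ^ 2 / 2) ≤ η ^ 2 / 2 := by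
    refine le_trans ?_ hMW1
    calc ∑ e, J e * ((h (tgt e) - h (src e)) ^ 2 / 2)
        ≤ ∑ e, β / 2 * ((fun w : Tor M × Bool => incr L (w.1 - (em e0).1) w.2 ^ 2 /
            (lg L 0 - lg 1 0) ^ 2) (em e)) := by
          refine Finset.sum_le_sum fun e _ => ?_
          simp only [h, hsrc, htgt]
          calc J e * ((hcut L (em e0).1 ((em e).1 + step (em e).2) -
                hcut L (em e0).1 (em e).1) ^ 2 / 2)
              ≤ β * ((incr L ((em e).1 - (em e0).1) (em e).2 ^ 2 / (lg L 0 - lg 1 0) ^ 2) / 2) :=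
                mul_le_mul (hJβ e) (div_le_div_of_nonneg_right (hcut_sq L _ _ _) two_pos.le)
                  (by positivity) hβ.le
            _ = _ := by ring
      _ ≤ β / 2 * ((2 * Real.pi * Real.log L + 92) / (lg L 0 - lg 1 0) ^ 2) := by
          rw [← Finset.mul_sum]
          refine mul_le_mul_of_nonneg_left ?_ (by positivity)
          refine (sum_le_of_em hem (fun w : Tor M × Bool => incr L (w.1 - (em e0).1) w.2 ^ 2 /
            (lg L 0 - lg 1 0) ^ 2) fun w => by positivity).trans ?_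
          simp only [← Finset.sum_div]
          refine div_le_div_of_nonneg_right ?_ (by positivity)
          rw [Fintype.sum_prod_type]
          refine le_trans (le_of_eq ?_) (energy_le (M := M) L)
          exact (Equiv.subRight (em e0).1).sum_comp (fun z => ∑ d : Bool, incr L z d ^ 2)
  have hs : ∑ e, (if h (src e) = 0 ∧ h (tgt e) = 0 then 0 else 2 * a e) ≤ η ^ 2 / 2 := by
    calc ∑ e, (if h (src e) = 0 ∧ h (tgt e) = 0 then 0 else 2 * a e)
        ≤ ∑ e, (if len ((em e).1 - (em e0).1) ≤ 2 * L then 2 * β * 3 * u0 else 0) := by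
          refine Finset.sum_le_sum fun e _ => ?_
          by_cases hl : len ((em e).1 - (em e0).1) ≤ 2 * L
          · rw [if_pos hl]
            split_ifs
            · positivity
            · have tx := len_triangle (em e0).1 (em e).1 px
              have ty := len_triangle (em e0).1 (em e).1 py
              rw [len_sub_comm (em e0).1 (em e).1] at tx ty
              have := hsmall e (by omega) (by omega)
              linarith
          · rw [if_neg hl, if_pos]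
            push Not at hl
            refine ⟨hcut_zero L _ _ (by rw [hsrc]; omega), hcut_zero L _ _ ?_⟩
            rw [htgt]
            have t := len_triangle (em e).1 ((em e).1 + step (em e).2) (em e0).1
            have h1 := len_step_le (M := M) (em e).2
            rw [sub_add_cancel_left, len_neg] at t
            omega
      _ ≤ NL * (2 * β * 3 * u0) := by
          rw [← Finset.sum_filter, Finset.sum_const, nsmul_eq_mul]
          rw [hNL]
          exact mul_le_mul_of_nonneg_right (card_edges_le hem _ _) (by positivity)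
      _ ≤ NL * (2 * β * 3 * (η ^ 2 / (2 * (2 * β * 3) * NL))) := by
          gcongr
      _ = η ^ 2 / 2 := by field_simp
  linarith

theorem energy_pair {M : ℕ} [NeZero M] {ι : Type} [Fintype ι] {em : ι → Tor M × Bool}
    (hem : Function.Injective em) (η₀ : ℝ) (R : ℕ) (px py : Tor M) (δ : ι → ℝ)
    (hsep : 4 * R + 2 < len (px - py))
    (hδ : ∀ e, δ e = η₀ * (incr R ((em e).1 - py) (em e).2 - incr R ((em e).1 - px) (em e).2)) :
    ∑ e, δ e ^ 2 ≤ η₀ ^ 2 * (2 * (2 * Real.pi * Real.log R + 92)) := by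
  let A : Tor M → Tor M × Bool → ℝ := fun c w => incr R (w.1 - c) w.2
  have hdisj : ∀ w : Tor M × Bool, A py w * A px w = 0 := by
    intro w
    by_contra hne
    rcases not_or.mp (mt (fun h => mul_eq_zero.mpr h) hne) with ⟨hy, hx⟩
    have bx : len (w.1 - px) ≤ 2 * R + 1 := by
      by_contra hc; exact hx (incr_eq_zero R _ _ (by omega))
    have by' : len (w.1 - py) ≤ 2 * R + 1 := by
      by_contra hc; exact hy (incr_eq_zero R _ _ (by omega))
    have := len_triangle px w.1 py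
    rw [len_sub_comm px w.1] at this
    omega
  have henergy : ∑ e, δ e ^ 2 ≤ η₀ ^ 2 * (2 * (2 * Real.pi * Real.log R + 92)) := by
    calc ∑ e, δ e ^ 2 = η₀ ^ 2 * ∑ e, (fun w => A py w ^ 2 + A px w ^ 2) (em e) := by
          rw [Finset.mul_sum]
          refine Finset.sum_congr rfl fun e _ => ?_
          rw [hδ]
          have := hdisj (em e)
          linear_combination (-2 * η₀ ^ 2) * this
      _ ≤ η₀ ^ 2 * (2 * (2 * Real.pi * Real.log R + 92)) := by
          refine mul_le_mul_of_nonneg_left ((sum_le_of_em hem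
            (fun w => A py w ^ 2 + A px w ^ 2) fun w => by positivity).trans ?_) (sq_nonneg _)
          rw [Finset.sum_add_distrib, two_mul]
          refine add_le_add ?_ ?_ <;>
          · rw [Fintype.sum_prod_type]
            refine le_trans (le_of_eq ?_) (energy_le (M := M) R)
            exact (Equiv.subRight _).sum_comp (fun z => ∑ d : Bool, incr R z d ^ 2)
  exact henergy

theorem cosh_le_of_abs {d e : ℝ} (h : |d| ≤ e) : Real.cosh d ≤ Real.cosh e :=
  Real.cosh_le_cosh.mpr (h.trans (le_abs_self e))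

theorem incr_diff_le {M : ℕ} [NeZero M] (R : ℕ) (z w : Tor M) (d : Bool) :
    |incr R z d - incr R w d| ≤ 2 := by
  have c1 := (sq_le_one_iff_abs_le_one _).mp (incr_le_one R z d)
  have c2 := (sq_le_one_iff_abs_le_one _).mp (incr_le_one R w d)
  linarith [abs_sub (incr R z d) (incr R w d)]

theorem term_le {β η₀ η θ κ u0 J' d a' g' : ℝ} {nn : ℕ} (hJ0 : 0 ≤ J') (hJβ : J' ≤ β) (hβ : 0 < β)
    (hκ0 : 0 < κ) (hη : 0 < η) (hu0pos : 0 < u0) (hu1 : u0 ≤ 1) (hu2 : u0 ≤ θ / 2)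
    (hfac : (2 / (nn:ℝ) + 6 * η) * (1 + θ) ≤ κ) (ha : a' = J' * (Real.cosh d - 1))
    (hd : |d| ≤ 2 * η₀) (hg1 : g' ≤ 1) (nx ny : Prop) [Decidable nx] [Decidable ny]
    (hu : ¬ nx → ¬ ny → d ^ 2 / 2 ≤ u0) (hg : ¬ nx → ¬ ny → g' ≤ 2 / nn + 6 * η) :
    a' * g' ≤ (if nx then β * (Real.cosh (2 * η₀) - 1) else 0) +
      (if ny then β * (Real.cosh (2 * η₀) - 1) else 0) + κ * (β / 2) * d ^ 2 := by
  have hc0 : 0 ≤ β * (Real.cosh (2 * η₀) - 1) :=
    mul_nonneg hβ.le (by linarith [Real.one_le_cosh (2 * η₀)])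
  have ha0 : 0 ≤ a' := ha ▸ mul_nonneg hJ0 (by linarith [Real.one_le_cosh d])
  have hamax : a' ≤ β * (Real.cosh (2 * η₀) - 1) := ha ▸
    mul_le_mul hJβ (sub_le_sub_right (cosh_le_of_abs hd) 1) (by linarith [Real.one_le_cosh d]) hβ.le
  have hnn : 0 ≤ κ * (β / 2) * d ^ 2 := by positivity
  have hle : a' * g' ≤ a' := mul_le_of_le_one_right ha0 hg1
  by_cases hx : nx
  · rw [if_pos hx]; split_ifs <;> linarith
  by_cases hy : ny
  · rw [if_neg hx, if_pos hy]; linarith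
  rw [if_neg hx, if_neg hy, zero_add, zero_add]
  have hexp : Real.exp u0 ≤ 1 + θ := by
    have h3 := abs_le.mp (Real.abs_exp_sub_one_le (x := u0) (by rw [abs_of_pos hu0pos]; exact hu1))
    rw [abs_of_pos hu0pos] at h3
    linarith
  have hae : a' ≤ β * (d ^ 2 / 2 * (1 + θ)) := ha ▸
    mul_le_mul hJβ ((cosh_sub_one_le (hu hx hy)).trans (mul_le_mul_of_nonneg_left hexp (by positivity)))
      (by linarith [Real.one_le_cosh d]) hβ.le
  calc a' * g' ≤ a' * (2 / nn + 6 * η) := mul_le_mul_of_nonneg_left (hg hx hy) ha0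
    _ ≤ β * (d ^ 2 / 2 * (1 + θ)) * (2 / nn + 6 * η) := mul_le_mul_of_nonneg_right hae (by positivity)
    _ = β * (d ^ 2 / 2) * ((2 / nn + 6 * η) * (1 + θ)) := by ring
    _ ≤ β * (d ^ 2 / 2) * κ := mul_le_mul_of_nonneg_left hfac (by positivity)
    _ = κ * (β / 2) * d ^ 2 := by ring

theorem final_le {η₀ K0 D : ℝ} {n r R : ℕ} (hη₀ : 0 < η₀) (hR1 : 1 ≤ R) (h11 : 1 + r ≤ 11 * R)
    (hD : 2 * η₀ * Real.log R ≤ D) :
    (n:ℝ) / 2 * Real.exp (-D + (K0 + η₀ * Real.log R)) ≤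
      (n:ℝ) / 2 * Real.exp K0 * 11 ^ η₀ * (1 + (r:ℝ)) ^ (-η₀) := by
  have hRpos : (0:ℝ) < R := by exact_mod_cast hR1
  calc (n:ℝ) / 2 * Real.exp (-D + (K0 + η₀ * Real.log R))
      ≤ (n:ℝ) / 2 * Real.exp (K0 + Real.log R * (-η₀)) := by gcongr ?_ * Real.exp ?_ <;> linarith
    _ = (n:ℝ) / 2 * Real.exp K0 * (R:ℝ) ^ (-η₀) := by
      rw [Real.exp_add, Real.rpow_def_of_pos hRpos, mul_assoc]
    _ ≤ (n:ℝ) / 2 * Real.exp K0 * (11 ^ η₀ * (1 + (r:ℝ)) ^ (-η₀)) := by
      gcongr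
      have hle : (1 + (r:ℝ)) / 11 ≤ R := by
        rw [div_le_iff₀ (by norm_num)]
        have : ((1 + r : ℕ) : ℝ) ≤ ((11 * R : ℕ) : ℝ) := by exact_mod_cast h11
        push_cast at this; linarith
      calc (R:ℝ) ^ (-η₀) ≤ ((1 + (r:ℝ)) / 11) ^ (-η₀) :=
            Real.rpow_le_rpow_of_nonpos (by positivity) hle (by linarith)
        _ = 11 ^ η₀ * (1 + (r:ℝ)) ^ (-η₀) := by
            rw [Real.div_rpow (by positivity) (by norm_num), Real.rpow_neg (by norm_num : (0:ℝ) ≤ 11)]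
            field_simp
    _ = _ := by ring

theorem cost_id {β η₀ κ : ℝ} (hβ : 0 < β) (hη₀ : 0 < η₀)
    (hκ : κ = 1 / (2 * Real.pi * β * η₀)) (X : ℝ) :
    κ * (β / 2) * (η₀ ^ 2 * (2 * (2 * Real.pi * X + 92))) =
      η₀ * X + κ * (β / 2) * η₀ ^ 2 * 184 := by
  have h : κ * (2 * Real.pi * β * η₀) = 1 := by rw [hκ]; field_simp
  linear_combination η₀ * X * h

/-- Power decay on every finite graph with nearest-neighbour bonds of the torus. -/
theorem decay_main (n : ℕ) [NeZero n] (hn : 2 ≤ n) (β η₀ : ℝ) (hβ : 0 < β) (hη₀ : 0 < η₀)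
    (hlt : η₀ < n / (4 * Real.pi * β)) :
    ∃ C : ℝ, 0 ≤ C ∧ ∀ (M : ℕ) [NeZero M] (V ι : Type) [Fintype V] [Fintype ι] (src tgt : ι → V)
      (J : ι → ℝ) (pos : V → Tor M) (em : ι → Tor M × Bool), Function.Injective em →
      (∀ e, pos (src e) = (em e).1) → (∀ e, pos (tgt e) = (em e).1 + step (em e).2) →
      (∀ e, 0 ≤ J e) → (∀ e, J e ≤ β) → ∀ x y : V,
      |gav (bondEn (n := n) src tgt J) (fun σ => ⟪(σ x).1, (σ y).1⟫)| ≤
        C * (1 + (len (pos x - pos y) : ℝ)) ^ (-η₀) := by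
  have hn' : (0:ℝ) < n := by exact_mod_cast (show 0 < n by omega)
  have hπ := Real.pi_pos
  set κ : ℝ := 1 / (2 * Real.pi * β * η₀) with hκdef
  have hκ : 2 / (n:ℝ) < κ := by
    rw [hκdef, div_lt_div_iff₀ hn' (by positivity)]
    rw [lt_div_iff₀ (by positivity)] at hlt
    linarith
  set gap := κ - 2 / (n:ℝ) with hgapdef
  have hgap : 0 < gap := by linarith
  have hκ0 : 0 < κ := lt_trans (by positivity) hκ
  set η := gap / 24 with hηdef
  have hη : 0 < η := by positivity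
  set θ := gap / (4 * κ) with hθdef
  have hθ : 0 < θ := by positivity
  have hfac : (2 / (n:ℝ) + 6 * η) * (1 + θ) ≤ κ := by
    have h1 : 2 / (n:ℝ) + 6 * η ≤ κ := by rw [hηdef]; linarith
    have h2 : κ * θ = gap / 4 := by rw [hθdef]; field_simp
    nlinarith [mul_le_mul_of_nonneg_right h1 hθ.le]
  obtain ⟨L, hL1, hGpos, hMW1⟩ := mw_radius β η hβ hη
  set NL : ℝ := 2 * ((2 * ((2 * L : ℕ) : ℝ) + 1) * (2 * ((2 * L : ℕ) : ℝ) + 1)) with hNL
  have hNL0 : 0 < NL := by positivity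
  obtain ⟨u0, Q, hu0pos, hQ0, hQ, hu1, hu2, hu3⟩ := small_params η₀ β η θ NL hβ hη hθ hNL0
  set R0 : ℕ := Q + 2 * L + 1 with hR0
  set Nnear : ℝ := 2 * (2 * ((2 * (R0:ℝ) + 1) * (2 * R0 + 1))) with hNnear
  set K0 : ℝ := β * (Real.cosh (2 * η₀) - 1) * Nnear + κ * (β / 2) * η₀ ^ 2 * 184 with hK0
  refine ⟨max ((n:ℝ) / 2 * Real.exp K0 * 11 ^ η₀) (7 ^ η₀), le_max_of_le_right (by positivity),
    fun M _ V ι _ _ src tgt J pos em hem hsrc htgt hJ0 hJβ x y => ?_⟩
  set r := len (pos x - pos y) with hr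
  have hcont := continuous_bondEn (n := n) src tgt J
  by_cases hsmall : r < 7
  · refine (abs_gav_le_one hcont (by fun_prop) fun σ => abs_inner_le _ _).trans ?_
    refine le_trans ?_ (mul_le_mul_of_nonneg_right (le_max_right _ _) (by positivity))
    rw [Real.rpow_neg (by positivity), ← div_eq_mul_inv, le_div_iff₀ (by positivity), one_mul]
    have h7 : (r:ℝ) + 1 ≤ 7 := by exact_mod_cast hsmall
    exact Real.rpow_le_rpow (by positivity) (by linarith) hη₀.le
  push Not at hsmall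
  set R := (r - 3) / 4 with hR
  have hR1 : 1 ≤ R := by omega
  have hsep : 4 * R + 2 < r := by omega
  have h11 : 1 + r ≤ 11 * R := by omega
  obtain ⟨i0, i1, h01⟩ : ∃ i0 i1 : Fin n, i0 ≠ i1 :=
    ⟨⟨0, by omega⟩, ⟨1, by omega⟩, by simp [Fin.ext_iff]⟩
  let φ : V → ℝ := fun v => η₀ * (psi R (pos v - pos y) - psi R (pos v - pos x))
  let A : Tor M → Tor M × Bool → ℝ := fun c w => incr R (w.1 - c) w.2
  let δ : ι → ℝ := fun e => φ (tgt e) - φ (src e)
  have hδ : ∀ e, δ e = η₀ * (A (pos y) (em e) - A (pos x) (em e)) := by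
    intro e
    simp only [δ, φ, A, incr, hsrc, htgt]
    rw [show (em e).1 + step (em e).2 - pos y = (em e).1 - pos y + step (em e).2 by abel,
      show (em e).1 + step (em e).2 - pos x = (em e).1 - pos x + step (em e).2 by abel]
    ring
  let a : ι → ℝ := fun e => J e * (Real.cosh (φ (tgt e) - φ (src e)) - 1)
  have ha0 : ∀ e, 0 ≤ a e := fun e => mul_nonneg (hJ0 e) (by linarith [Real.one_le_cosh (δ e)])
  have hD : 2 * η₀ * Real.log R ≤ φ x - φ y := by
    have h1 : psi R (pos x - pos y) = lg R 0 := psi_far R _ (by omega)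
    have h2 : psi R (pos y - pos x) = lg R 0 := psi_far R _ (by rw [len_sub_comm]; omega)
    simp only [φ, sub_self, psi_zero, h1, h2, sub_zero, zero_sub]
    nlinarith [log_le_lg R hR1]
  -- smallness away from the two sources
  have hfar : ∀ e, Q + 1 ≤ len ((em e).1 - pos x) → Q + 1 ≤ len ((em e).1 - pos y) →
      δ e ^ 2 / 2 ≤ u0 := by
    intro e hx hy
    have h1 := incr_small R Q ((em e).1 - pos x) (em e).2 hx hQ0
    have h2 := incr_small R Q ((em e).1 - pos y) (em e).2 hy hQ0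
    rw [hδ]
    simp only [A]
    refine le_trans ?_ hQ
    rw [div_pow] at h1 h2
    rw [mul_pow, show 18 * η₀ ^ 2 / (Q:ℝ) ^ 2 = η₀ ^ 2 * (2 * (3 ^ 2 / (Q:ℝ) ^ 2)) by ring,
      mul_div_assoc]
    refine mul_le_mul_of_nonneg_left ?_ (by positivity)
    nlinarith [sq_nonneg (incr R ((em e).1 - pos x) (em e).2 + incr R ((em e).1 - pos y) (em e).2)]
  -- the weight of a far bond
  have hplane : ∀ e0, R0 < len ((em e0).1 - pos x) → R0 < len ((em e0).1 - pos y) →
      gav (tiltEn src tgt J i0 i1 a) (fun σ => planeG i0 i1 (σ (src e0)).1 (σ (tgt e0)).1)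
        ≤ 2 / n + 6 * η := by
    intro e0 hx hy
    refine far_weight src tgt J a pos em hem hsrc htgt hJ0 hJβ hβ ha0 h01 hη hu0pos hR0 hGpos hMW1
      hNL hu3 (pos x) (pos y) (fun e hx hy => ?_) e0 hx hy
    have he : Real.exp u0 ≤ 3 := le_trans (Real.exp_le_exp.mpr hu1) Real.exp_one_lt_three.le
    refine mul_le_mul (hJβ e) ?_ (by linarith [Real.one_le_cosh (δ e)]) hβ.le
    exact (cosh_sub_one_le (hfar e hx hy)).trans
      (mul_le_mul (hfar e hx hy) he (Real.exp_pos _).le hu0pos.le)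
  -- the total cost
  have henergy := energy_pair hem η₀ R (pos x) (pos y) δ hsep hδ
  let G : ι → ℝ := fun e =>
    gav (tiltEn src tgt J i0 i1 a) (fun σ => planeG i0 i1 (σ (src e)).1 (σ (tgt e)).1)
  have hG1 : ∀ e, G e ≤ 1 := fun e => gav_le_one (continuous_tiltEn src tgt J i0 i1 a)
    (by unfold planeG; fun_prop) fun σ => (abs_le.mp (abs_planeG_le h01 _ _)).2
  have hcost : ∑ e, a e * G e ≤ K0 + η₀ * Real.log R := by
    have hterm : ∀ e, a e * G e ≤
        (if len ((em e).1 - pos x) ≤ R0 then β * (Real.cosh (2 * η₀) - 1) else 0) +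
        (if len ((em e).1 - pos y) ≤ R0 then β * (Real.cosh (2 * η₀) - 1) else 0) +
        κ * (β / 2) * δ e ^ 2 := fun e =>
      term_le (hJ0 e) (hJβ e) hβ hκ0 hη hu0pos hu1 hu2 hfac rfl
        (by show |δ e| ≤ _
            rw [hδ, abs_mul, abs_of_pos hη₀, mul_comm 2 η₀]
            exact mul_le_mul_of_nonneg_left (incr_diff_le R _ _ _) hη₀.le)
        (hG1 e) _ _ (fun hx hy => hfar e (by omega) (by omega))
        (fun hx hy => hplane e (by omega) (by omega))
    refine (Finset.sum_le_sum fun e _ => hterm e).trans ?_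
    rw [Finset.sum_add_distrib, Finset.sum_add_distrib, ← Finset.mul_sum, ← Finset.sum_filter,
      ← Finset.sum_filter, Finset.sum_const, Finset.sum_const, nsmul_eq_mul, nsmul_eq_mul]
    have hc0 : 0 ≤ β * (Real.cosh (2 * η₀) - 1) :=
      mul_nonneg hβ.le (by linarith [Real.one_le_cosh (2 * η₀)])
    have t1 := mul_le_mul_of_nonneg_right (card_edges_le hem R0 (pos x)) hc0
    have t2 := mul_le_mul_of_nonneg_right (card_edges_le hem R0 (pos y)) hc0
    have t3 := mul_le_mul_of_nonneg_left henergy (by positivity : (0:ℝ) ≤ κ * (β / 2))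
    have hid := cost_id hβ hη₀ hκdef (Real.log R)
    rw [hK0, hNnear]
    linarith
  refine (corr_bound src tgt h01 J φ x y (K0 + η₀ * Real.log R) hcost).trans ?_
  exact (final_le hη₀ hR1 h11 hD).trans
    (mul_le_mul_of_nonneg_right (le_max_left _ _) (by positivity))

end Vale.Agent.P163
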