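import Vale.Agent.P163.Shift

/-! Plane weights in tilted Gibbs measures and the correlation bound on a finite graph. -/

open MeasureTheory
open scoped RealInnerProductSpace

namespace Vale.Agent.P163

variable {V : Type*} [Fintype V] {ι : Type*} [Fintype ι] {n : ℕ} [NeZero n]
  (src tgt : ι → V)

/-- Coupling energy plus plane energy. -/
noncomputable def tiltEn (J : ι → ℝ) (p q : Fin n) (a : ι → ℝ) (σ : V → Spin n) : ℝ :=
  bondEn src tgt J σ + planeEn src tgt p q a σ

omit [NeZero n] [Fintype V] in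
theorem continuous_tiltEn (J : ι → ℝ) (p q : Fin n) (a : ι → ℝ) :
    Continuous (tiltEn src tgt J p q a) :=
  (continuous_bondEn src tgt J).add (continuous_planeEn src tgt p q a)

/-- Two components of a pair correlation are close in a tilted measure. -/
theorem comp_close {J a : ι → ℝ} (hJ : ∀ e, 0 ≤ J e) (ha : ∀ e, 0 ≤ a e) {p q : Fin n}
    (hpq : p ≠ q) (u v : V) (h : V → ℝ) (hu : h u = Real.pi / 4) (hv : h v = Real.pi / 4)
    {η : ℝ} (hη : 0 < η)
    (hK : ∑ e, (J e * ((h (tgt e) - h (src e)) ^ 2 / 2) +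
      if h (src e) = 0 ∧ h (tgt e) = 0 then 0 else 2 * a e) ≤ η ^ 2) (i j : Fin n) :
    |gav (tiltEn src tgt J p q a) (fun σ => (σ u).1 i * (σ v).1 i) -
      gav (tiltEn src tgt J p q a) (fun σ => (σ u).1 j * (σ v).1 j)| ≤ 3 * η := by
  rcases eq_or_ne i j with rfl | hij
  · simpa using mul_nonneg (by norm_num : (0:ℝ) ≤ 3) hη.le
  set H := tiltEn src tgt J p q a
  let f : (V → Spin n) → ℝ := fun σ =>
    (rot hij (Real.pi / 4) (σ u)).1 i * (rot hij (Real.pi / 4) (σ v)).1 i
  have hf : Continuous f := by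
    simp only [f, rot_coe, rotFun_p]; fun_prop
  have hf1 : ∀ σ, |f σ| ≤ 1 := fun σ => by
    rw [abs_mul]; exact mul_le_one₀ (abs_apply_le _ _) (abs_nonneg _) (abs_apply_le _ _)
  have hmain := affinity_bound hij h (H := H) (continuous_tiltEn src tgt J p q a) hf hf1 hη hK
    (fun σ => ?_)
  · have e1 : (fun σ => f (rotConf hij h σ)) = fun σ => (σ u).1 j * (σ v).1 j := by
      funext σ
      simp only [f, rotConf, rot_rot, hu, hv]
      rw [show Real.pi / 4 + Real.pi / 4 = Real.pi / 2 by ring]
      simp [rot_coe, rotFun_p]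
    have e2 : (fun σ => f (rotConf hij (-h) σ)) = fun σ => (σ u).1 i * (σ v).1 i := by
      funext σ
      simp only [f, rotConf, Pi.neg_apply, rot_rot, hu, hv, add_neg_cancel, rot_zero]
    rw [e1, e2, abs_sub_comm] at hmain
    exact hmain
  · simp only [H, tiltEn, bondEn, planeEn, ← Finset.sum_add_distrib, ← Finset.sum_sub_distrib,
      Finset.sum_div]
    refine Finset.sum_le_sum fun e _ => ?_
    simp only [rotConf, rot_coe, inner_rot hij, Pi.neg_apply]
    set su := (σ (src e)).1
    set sv := (σ (tgt e)).1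
    set d := h (tgt e) - h (src e) with hd
    have hg := abs_planeG_le hij (σ (src e)) (σ (tgt e))
    have hc1 : 0 ≤ 1 - Real.cos d := by linarith [Real.cos_le_one d]
    have hc2 : 1 - Real.cos d ≤ d ^ 2 / 2 := by linarith [Real.one_sub_sq_div_two_le_cos (x := d)]
    have h1 : J e * ((1 - Real.cos d) * planeG i j su sv) ≤ J e * (d ^ 2 / 2) := by
      refine mul_le_mul_of_nonneg_left ?_ (hJ e)
      calc (1 - Real.cos d) * planeG i j su sv ≤ (1 - Real.cos d) * 1 :=
            mul_le_mul_of_nonneg_left (abs_le.mp hg).2 hc1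
        _ ≤ d ^ 2 / 2 := by rw [mul_one]; exact hc2
    rw [show -h (tgt e) - -h (src e) = -d by ring, Real.cos_neg, Real.sin_neg]
    have h2 : a e * planeG p q su sv - (a e * planeG p q (rotFun i j (h (src e)) su)
          (rotFun i j (h (tgt e)) sv) + a e * planeG p q (rotFun i j (-h (src e)) su)
          (rotFun i j (-h (tgt e)) sv)) / 2 ≤
        if h (src e) = 0 ∧ h (tgt e) = 0 then 0 else 2 * a e := by
      split_ifs with h0
      · rw [h0.1, h0.2]; simp [rotFun_zero]
      · have b1 := abs_planeG_le hpq (σ (src e)) (σ (tgt e))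
        have b2 := abs_planeG_le hpq (rot hij (h (src e)) (σ (src e))) (rot hij (h (tgt e)) (σ (tgt e)))
        have b3 := abs_planeG_le hpq (rot hij (-h (src e)) (σ (src e)))
          (rot hij (-h (tgt e)) (σ (tgt e)))
        simp only [rot_coe] at b2 b3
        rw [show a e * planeG p q su sv - (a e * planeG p q (rotFun i j (h (src e)) su)
          (rotFun i j (h (tgt e)) sv) + a e * planeG p q (rotFun i j (-h (src e)) su)
          (rotFun i j (-h (tgt e)) sv)) / 2 = a e * (planeG p q su sv -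
          (planeG p q (rotFun i j (h (src e)) su) (rotFun i j (h (tgt e)) sv) +
          planeG p q (rotFun i j (-h (src e)) su) (rotFun i j (-h (tgt e)) sv)) / 2) by ring,
          mul_comm 2 (a e)]
        refine mul_le_mul_of_nonneg_left ?_ (ha e)
        linarith [abs_le.mp b1, abs_le.mp b2, abs_le.mp b3]
    linarith

/-- The plane weight of a pair is at most `2 / n + 6 η` in a tilted measure. -/
theorem plane_le {J a : ι → ℝ} (hJ : ∀ e, 0 ≤ J e) (ha : ∀ e, 0 ≤ a e) {p q : Fin n}
    (hpq : p ≠ q) (u v : V) (h : V → ℝ) (hu : h u = Real.pi / 4) (hv : h v = Real.pi / 4)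
    {η : ℝ} (hη : 0 < η)
    (hK : ∑ e, (J e * ((h (tgt e) - h (src e)) ^ 2 / 2) +
      if h (src e) = 0 ∧ h (tgt e) = 0 then 0 else 2 * a e) ≤ η ^ 2) :
    gav (tiltEn src tgt J p q a) (fun σ => planeG p q (σ u).1 (σ v).1) ≤ 2 / n + 6 * η := by
  set H := tiltEn src tgt J p q a
  have hH : Continuous H := continuous_tiltEn src tgt J p q a
  let Dc : Fin n → ℝ := fun i => gav H fun σ => (σ u).1 i * (σ v).1 i
  have hclose : ∀ i j, |Dc i - Dc j| ≤ 3 * η := comp_close src tgt hJ ha hpq u v h hu hv hη hK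
  have hsum : ∑ i, Dc i ≤ 1 := by
    rw [← gav_sum H hH Finset.univ _ (fun i => by fun_prop)]
    refine gav_le_one hH (by fun_prop) fun σ => ?_
    rw [← inner_eq_sum]
    exact (abs_le.mp (abs_inner_le _ _)).2
  have hn : (0:ℝ) < n := by exact_mod_cast Nat.pos_of_ne_zero (NeZero.ne n)
  have hone : ∀ i, Dc i ≤ 1 / n + 3 * η := by
    intro i
    have : ∑ _j : Fin n, (Dc i - 3 * η) ≤ ∑ j, Dc j :=
      Finset.sum_le_sum fun j _ => by linarith [(abs_le.mp (hclose i j)).2]
    simp at this
    rw [← sub_le_iff_le_add, le_div_iff₀ hn]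
    linarith
  have hsplit : gav H (fun σ => planeG p q (σ u).1 (σ v).1) = Dc p + Dc q := by
    rw [← Finset.sum_pair (f := Dc) hpq]
    simp only [Dc]
    rw [← gav_sum H hH _ _ (fun i => by fun_prop)]
    congr 1
    funext σ
    rw [Finset.sum_pair hpq]
    rfl
  rw [hsplit, show (2:ℝ) / n = 1 / n + 1 / n by ring]
  linarith [hone p, hone q]

/-- All components of a pair correlation agree in the rotation invariant measure. -/
theorem comp_eq (J : ι → ℝ) (x y : V) (i j : Fin n) :
    gav (bondEn (n := n) src tgt J) (fun σ => (σ x).1 i * (σ y).1 i) =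
      gav (bondEn (n := n) src tgt J) (fun σ => (σ x).1 j * (σ y).1 j) := by
  rcases eq_or_ne i j with rfl | hij
  · rfl
  have hc := continuous_bondEn (n := n) src tgt J
  simp only [gav]
  congr 1
  conv_lhs => rw [← integral_rotConf hij (fun _ => Real.pi / 2)
    (G := fun σ => (σ x).1 i * (σ y).1 i * Real.exp (bondEn src tgt J σ)) (by fun_prop)]
  refine integral_congr_ae (Filter.Eventually.of_forall fun σ => ?_)
  simp [rotConf, rot_coe, bondEn, inner_rot hij, rotFun_p]

theorem inner_gav_eq {p q : Fin n} (hpq : p ≠ q) (J : ι → ℝ) (x y : V) :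
    gav (bondEn (n := n) src tgt J) (fun σ => ⟪(σ x).1, (σ y).1⟫) =
      (n / 2 : ℝ) * gav (bondEn (n := n) src tgt J) (fun σ => planeG p q (σ x).1 (σ y).1) := by
  set H := bondEn (n := n) src tgt J
  have hH : Continuous H := continuous_bondEn src tgt J
  have hp : ∀ i, gav H (fun σ => (σ x).1 i * (σ y).1 i) = gav H (fun σ => (σ x).1 p * (σ y).1 p) :=
    fun i => comp_eq src tgt J x y i p
  have e1 : gav H (fun σ => ⟪(σ x).1, (σ y).1⟫) = n * gav H (fun σ => (σ x).1 p * (σ y).1 p) := by
    simp only [inner_eq_sum]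
    rw [gav_sum H hH _ _ (fun i => by fun_prop), Finset.sum_congr rfl fun i _ => hp i]
    simp
  have e2 : gav H (fun σ => planeG p q (σ x).1 (σ y).1) =
      2 * gav H (fun σ => (σ x).1 p * (σ y).1 p) := by
    have := gav_sum H hH {p, q} (fun i σ => (σ x).1 i * (σ y).1 i) (fun i => by fun_prop)
    simp only [Finset.sum_pair hpq] at this
    simp only [planeG]
    rw [this, hp q]; ring
  rw [e1, e2]; ring

/-- Correlation bound by complex rotation, tilt and Jensen. -/
theorem corr_bound {p q : Fin n} (hpq : p ≠ q) (J : ι → ℝ) (φ : V → ℝ) (x y : V) (C : ℝ)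
    (hC : ∑ e, J e * (Real.cosh (φ (tgt e) - φ (src e)) - 1) *
      gav (tiltEn src tgt J p q fun e => J e * (Real.cosh (φ (tgt e) - φ (src e)) - 1))
        (fun σ => planeG p q (σ (src e)).1 (σ (tgt e)).1) ≤ C) :
    |gav (bondEn (n := n) src tgt J) (fun σ => ⟪(σ x).1, (σ y).1⟫)| ≤
      n / 2 * Real.exp (-(φ x - φ y) + C) := by
  set a : ι → ℝ := fun e => J e * (Real.cosh (φ (tgt e) - φ (src e)) - 1) with ha
  have hcb := continuous_bondEn (n := n) src tgt J
  have hcp := continuous_planeEn (n := n) src tgt p q a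
  have hZ := part_pos hcb
  have hjen := part_le_exp_gav hcb hcp
  have hg : gav (fun σ => bondEn src tgt J σ + planeEn src tgt p q a σ)
      (planeEn src tgt p q a) ≤ C := by
    refine le_trans (le_of_eq ?_) hC
    have hh : (fun σ => bondEn src tgt J σ + planeEn src tgt p q a σ) = tiltEn src tgt J p q a := rfl
    rw [hh]
    simp only [← gav_const_mul]
    exact gav_sum _ (continuous_tiltEn src tgt J p q a) _ _ (fun e => by unfold planeG; fun_prop)
  rw [inner_gav_eq src tgt hpq, abs_mul, abs_of_nonneg (by positivity : (0:ℝ) ≤ n / 2)]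
  refine mul_le_mul_of_nonneg_left ?_ (by positivity)
  rw [gav, abs_div, abs_of_pos hZ, div_le_iff₀ hZ]
  refine (shift_bound src tgt hpq J φ x y).trans ?_
  rw [Real.exp_add, mul_assoc]
  refine mul_le_mul_of_nonneg_left (hjen.trans ?_) (Real.exp_pos _).le
  rw [mul_comm]
  exact mul_le_mul_of_nonneg_right (Real.exp_le_exp.mpr hg) hZ.le

end Vale.Agent.P163
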