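import Mathlib

/-! Plane rotations of the unit sphere and invariance of the uniform measure. -/

open MeasureTheory Set
open scoped Pointwise RealInnerProductSpace

namespace Vale.Agent.P163

abbrev Vec (n : ℕ) := EuclideanSpace ℝ (Fin n)

abbrev Spin (n : ℕ) := Metric.sphere (0 : Vec n) 1

/-- The normalized uniform measure on the sphere. -/
noncomputable def unif (n : ℕ) : Measure (Spin n) :=
  ((volume : Measure (Vec n)).toSphere univ)⁻¹ • (volume : Measure (Vec n)).toSphere

instance unif_prob (n : ℕ) [NeZero n] : IsProbabilityMeasure (unif n) := by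
  constructor
  have h0 : (volume : Measure (Vec n)).toSphere univ ≠ 0 := by
    rw [Measure.measure_univ_ne_zero]
    exact Measure.toSphere_ne_zero _
  simp only [unif, Measure.smul_apply, smul_eq_mul]
  exact ENNReal.inv_mul_cancel h0 (measure_ne_top _ _)

/-- A linear isometry restricted to the sphere. -/
noncomputable def sphMap {n : ℕ} (A : Vec n ≃ₗᵢ[ℝ] Vec n) (u : Spin n) : Spin n :=
  ⟨A u.1, by simp⟩

theorem continuous_sphMap {n : ℕ} (A : Vec n ≃ₗᵢ[ℝ] Vec n) : Continuous (sphMap A) := by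
  unfold sphMap; fun_prop

theorem sphMap_preserving {n : ℕ} (A : Vec n ≃ₗᵢ[ℝ] Vec n) :
    MeasurePreserving (sphMap A) (unif n) (unif n) := by
  refine ⟨(continuous_sphMap A).measurable, ?_⟩
  unfold unif
  rw [Measure.map_smul]
  congr 1
  refine Measure.ext fun s hs => ?_
  have hpre : MeasurableSet (sphMap A ⁻¹' s) := (continuous_sphMap A).measurable hs
  rw [Measure.map_apply (continuous_sphMap A).measurable hs, Measure.toSphere_apply' _ hs,
    Measure.toSphere_apply' _ hpre]
  congr 1
  have himg : (Ioo (0:ℝ) 1 • ((↑) '' (sphMap A ⁻¹' s) : Set (Vec n)))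
      = A ⁻¹' (Ioo (0:ℝ) 1 • ((↑) '' s)) := by
    ext v
    simp only [Set.mem_preimage, Set.mem_smul, Set.mem_image]
    constructor
    · rintro ⟨r, hr, _, ⟨u, hu, rfl⟩, rfl⟩
      exact ⟨r, hr, _, ⟨sphMap A u, hu, rfl⟩, by simp [sphMap]⟩
    · rintro ⟨r, hr, _, ⟨u, hu, rfl⟩, hv⟩
      have : sphMap A (sphMap A.symm u) = u := Subtype.ext (by simp [sphMap])
      refine ⟨r, hr, _, ⟨sphMap A.symm u, by rwa [this], rfl⟩, ?_⟩
      apply A.injective
      simpa [sphMap] using hv
  rw [himg]
  have hA : MeasurePreserving A.toHomeomorph.toMeasurableEquiv volume volume :=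
    A.measurePreserving
  exact hA.measure_preimage_equiv _

section Rot

variable {n : ℕ} (p q : Fin n)

/-- Rotation by angle `t` in the coordinate plane `(p, q)`. -/
noncomputable def rotFun (t : ℝ) (v : Vec n) : Vec n :=
  WithLp.toLp 2 fun i =>
    if i = p then Real.cos t * v p - Real.sin t * v q
    else if i = q then Real.sin t * v p + Real.cos t * v q
    else v i

theorem rotFun_apply (t : ℝ) (v : Vec n) (i : Fin n) :
    rotFun p q t v i =
    if i = p then Real.cos t * v p - Real.sin t * v q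
    else if i = q then Real.sin t * v p + Real.cos t * v q
    else v i := rfl

variable {p q}

theorem rotFun_p (t : ℝ) (v : Vec n) :
    rotFun p q t v p = Real.cos t * v p - Real.sin t * v q := by simp [rotFun_apply]

theorem rotFun_q (hpq : p ≠ q) (t : ℝ) (v : Vec n) :
    rotFun p q t v q = Real.sin t * v p + Real.cos t * v q := by
  simp [rotFun_apply, hpq.symm]

theorem rotFun_other {i : Fin n} (hp : i ≠ p) (hq : i ≠ q) (t : ℝ) (v : Vec n) :
    rotFun p q t v i = v i := by simp [rotFun_apply, hp, hq]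

/-- The two plane invariants. -/
def planeG (p q : Fin n) (u v : Vec n) : ℝ := u p * v p + u q * v q

/-- The antisymmetric plane invariant. -/
def planeW (p q : Fin n) (u v : Vec n) : ℝ := u p * v q - u q * v p

theorem inner_eq_sum (u v : Vec n) : ⟪u, v⟫ = ∑ i, u i * v i := by
  rw [PiLp.inner_apply]
  exact Finset.sum_congr rfl fun i _ => by simp [mul_comm]

theorem sum_plane (hpq : p ≠ q) (f : Fin n → ℝ) :
    ∑ i, f i = f p + f q + ∑ i ∈ Finset.univ \ {p, q}, f i := by
  rw [← Finset.sum_sdiff (Finset.subset_univ {p, q}), Finset.sum_pair hpq]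
  ring

theorem inner_rot (hpq : p ≠ q) (a b : ℝ) (u v : Vec n) :
    ⟪rotFun p q a u, rotFun p q b v⟫ =
      ⟪u, v⟫ + (Real.cos (b - a) - 1) * planeG p q u v - Real.sin (b - a) * planeW p q u v := by
  rw [inner_eq_sum, inner_eq_sum, sum_plane hpq, sum_plane hpq]
  have h : ∀ i ∈ Finset.univ \ ({p, q} : Finset (Fin n)),
      rotFun p q a u i * rotFun p q b v i = u i * v i := by
    intro i hi
    simp only [Finset.mem_sdiff, Finset.mem_univ, Finset.mem_insert, Finset.mem_singleton,
      true_and, not_or] at hi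
    rw [rotFun_other hi.1 hi.2, rotFun_other hi.1 hi.2]
  rw [Finset.sum_congr rfl h, rotFun_p, rotFun_p, rotFun_q hpq, rotFun_q hpq, Real.cos_sub,
    Real.sin_sub]
  simp only [planeG, planeW]
  ring

theorem rotFun_add (hpq : p ≠ q) (a b : ℝ) (v : Vec n) :
    rotFun p q a (rotFun p q b v) = rotFun p q (a + b) v := by
  ext i
  rcases eq_or_ne i p with rfl | hp
  · simp only [rotFun_p, rotFun_q hpq, Real.cos_add, Real.sin_add]; ring
  rcases eq_or_ne i q with rfl | hq
  · simp only [rotFun_p, rotFun_q hpq, Real.cos_add, Real.sin_add]; ring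
  simp only [rotFun_other hp hq]

theorem rotFun_zero (v : Vec n) : rotFun p q 0 v = v := by
  ext i
  rw [rotFun_apply]
  split_ifs with h1 h2 <;> simp [*]

/-- The rotation as a linear isometric equivalence. -/
noncomputable def rotEquiv (hpq : p ≠ q) (t : ℝ) : Vec n ≃ₗᵢ[ℝ] Vec n where
  toFun := rotFun p q t
  invFun := rotFun p q (-t)
  map_add' u v := by
    ext i; simp only [rotFun_apply, PiLp.add_apply]; split_ifs <;> ring
  map_smul' r v := by
    ext i; simp only [rotFun_apply, PiLp.smul_apply, smul_eq_mul, RingHom.id_apply]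
    split_ifs <;> ring
  left_inv v := by rw [rotFun_add hpq]; simp [rotFun_zero]
  right_inv v := by rw [rotFun_add hpq]; simp [rotFun_zero]
  norm_map' v := by
    have h : ‖rotFun p q t v‖ ^ 2 = ‖v‖ ^ 2 := by
      rw [← real_inner_self_eq_norm_sq, inner_rot hpq, real_inner_self_eq_norm_sq]
      simp
    simpa using (pow_left_inj₀ (norm_nonneg _) (norm_nonneg _) two_ne_zero).mp h

/-- Rotation acting on spins. -/
noncomputable def rot (hpq : p ≠ q) (t : ℝ) : Spin n → Spin n := sphMap (rotEquiv hpq t)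

theorem rot_coe (hpq : p ≠ q) (t : ℝ) (u : Spin n) :
    ((rot hpq t u : Spin n) : Vec n) = rotFun p q t u.1 := rfl

theorem rot_rot (hpq : p ≠ q) (a b : ℝ) (u : Spin n) :
    rot hpq a (rot hpq b u) = rot hpq (a + b) u :=
  Subtype.ext (by simp [rot_coe, rotFun_add hpq])

theorem rot_zero (hpq : p ≠ q) (u : Spin n) : rot hpq 0 u = u :=
  Subtype.ext (by simp [rot_coe, rotFun_zero])

theorem abs_apply_le (u : Spin n) (i : Fin n) : |u.1 i| ≤ 1 := by
  have h := PiLp.norm_apply_le u.1 i
  simpa [Real.norm_eq_abs] using h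

theorem sum_sq_eq_one (u : Spin n) : ∑ i, u.1 i * u.1 i = 1 := by
  rw [← inner_eq_sum, real_inner_self_eq_norm_sq]; simp

theorem abs_inner_le (u v : Spin n) : |⟪u.1, v.1⟫| ≤ 1 := by
  simpa using abs_real_inner_le_norm u.1 v.1

theorem plane_sq_le (hpq : p ≠ q) (u : Spin n) : u.1 p * u.1 p + u.1 q * u.1 q ≤ 1 := by
  have h := sum_sq_eq_one u
  rw [sum_plane hpq] at h
  have : 0 ≤ ∑ i ∈ Finset.univ \ ({p, q} : Finset (Fin n)), u.1 i * u.1 i :=
    Finset.sum_nonneg fun i _ => mul_self_nonneg _
  linarith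

theorem abs_planeG_le (hpq : p ≠ q) (u v : Spin n) : |planeG p q u.1 v.1| ≤ 1 := by
  have hu := plane_sq_le hpq u
  have hv := plane_sq_le hpq v
  unfold planeG
  rw [abs_le]
  constructor <;> nlinarith [mul_self_nonneg (u.1 p - v.1 p), mul_self_nonneg (u.1 q - v.1 q),
    mul_self_nonneg (u.1 p + v.1 p), mul_self_nonneg (u.1 q + v.1 q)]

end Rot

end Vale.Agent.P163
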