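import Vale.Agent.P163.Gibbs

/-! The complex rotation bound for the plane correlation. -/

open MeasureTheory Filter Topology
open scoped RealInnerProductSpace

namespace Vale.Agent.P163

variable {V : Type*} [Fintype V] {ι : Type*} [Fintype ι] {n : ℕ} [NeZero n]
  (src tgt : ι → V)

/-- The coupling energy. -/
noncomputable def bondEn (J : ι → ℝ) (σ : V → Spin n) : ℝ :=
  ∑ e, J e * ⟪(σ (src e)).1, (σ (tgt e)).1⟫

/-- The extra plane energy. -/
noncomputable def planeEn (p q : Fin n) (a : ι → ℝ) (σ : V → Spin n) : ℝ :=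
  ∑ e, a e * planeG p q (σ (src e)).1 (σ (tgt e)).1

omit [NeZero n] [Fintype V] in
@[fun_prop]
theorem continuous_coord (x : V) (i : Fin n) : Continuous fun σ : V → Spin n => (σ x).1 i :=
  (PiLp.continuous_apply 2 _ i).comp (continuous_subtype_val.comp (continuous_apply x))

omit [NeZero n] [Fintype V] in
theorem continuous_bondEn (J : ι → ℝ) : Continuous (bondEn (n := n) src tgt J) := by
  unfold bondEn; fun_prop

omit [NeZero n] [Fintype V] in
theorem continuous_planeEn (p q : Fin n) (a : ι → ℝ) :
    Continuous (planeEn (n := n) src tgt p q a) := by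
  unfold planeEn planeG; fun_prop

theorem differentiable_integral_entire {X : Type*} [TopologicalSpace X] [CompactSpace X]
    [MeasurableSpace X] [OpensMeasurableSpace X] {μ : Measure X} [IsFiniteMeasure μ]
    {f f' : ℂ → X → ℂ} (hf : Continuous fun z : ℂ × X => f z.1 z.2)
    (hf' : Continuous fun z : ℂ × X => f' z.1 z.2)
    (hd : ∀ t x, HasDerivAt (fun s => f s x) (f' t x) t) :
    Differentiable ℂ fun t => ∫ x, f t x ∂μ := by
  intro t
  obtain ⟨B, hB⟩ := ((isCompact_closedBall t 1).prod
    (isCompact_univ : IsCompact (Set.univ : Set X))).exists_bound_of_continuousOn hf'.continuousOn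
  have hc : ∀ s, Continuous (f s) := fun s => hf.comp (Continuous.prodMk continuous_const continuous_id)
  have hc' : Continuous (f' t) := hf'.comp (Continuous.prodMk continuous_const continuous_id)
  have hint : Integrable (f t) μ :=
    (hc t).integrable_of_hasCompactSupport (HasCompactSupport.of_compactSpace _)
  exact (hasDerivAt_integral_of_dominated_loc_of_deriv_le (F := f) (F' := f')
    (bound := fun _ => B) (Metric.ball_mem_nhds t one_pos)
    (Eventually.of_forall fun s =>
      ((hc s).integrable_of_hasCompactSupport (HasCompactSupport.of_compactSpace _)).aestronglyMeasurable)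
    hint
    (hc'.integrable_of_hasCompactSupport (HasCompactSupport.of_compactSpace _)).aestronglyMeasurable
    (Eventually.of_forall fun x s hs => hB (s, x) ⟨Metric.ball_subset_closedBall hs, trivial⟩)
    (integrable_const B) (Eventually.of_forall fun x s _ => hd s x)).2.differentiableAt

/-- `u_p + i u_q`. -/
noncomputable def zc {n : ℕ} (p q : Fin n) (u : Vec n) : ℂ := (u p : ℂ) + (u q : ℂ) * Complex.I

omit [NeZero n] in
theorem zc_rot {p q : Fin n} (hpq : p ≠ q) (t : ℝ) (u : Vec n) :
    zc p q (rotFun p q t u) = Complex.exp ((t : ℂ) * Complex.I) * zc p q u := by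
  rw [zc, zc, rotFun_p, rotFun_q hpq, Complex.exp_mul_I]
  apply Complex.ext <;> simp [← Complex.ofReal_cos, ← Complex.ofReal_sin]
  ring

omit [NeZero n] in
theorem norm_zc_le {p q : Fin n} (hpq : p ≠ q) (u : Spin n) : ‖zc p q u.1‖ ≤ 1 := by
  rw [zc, Complex.norm_add_mul_I, Real.sqrt_le_one]
  have := plane_sq_le hpq u
  nlinarith

theorem shift_bound {p q : Fin n} (hpq : p ≠ q) (J : ι → ℝ) (φ : V → ℝ) (x y : V) :
    |∫ σ, planeG p q (σ x).1 (σ y).1 * Real.exp (bondEn src tgt J σ) ∂refMeas V n| ≤
      Real.exp (-(φ x - φ y)) * part (fun σ => bondEn (n := n) src tgt J σ +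
        planeEn src tgt p q (fun e => J e * (Real.cosh (φ (tgt e) - φ (src e)) - 1)) σ) := by
  let δ : ι → ℝ := fun e => φ (tgt e) - φ (src e)
  let D : ℝ := φ x - φ y
  let g : ι → (V → Spin n) → ℝ := fun e σ => planeG p q (σ (src e)).1 (σ (tgt e)).1
  let w : ι → (V → Spin n) → ℝ := fun e σ => planeW p q (σ (src e)).1 (σ (tgt e)).1
  let c : (V → Spin n) → ℂ := fun σ => zc p q (σ x).1 * (starRingEnd ℂ) (zc p q (σ y).1)
  let P : ℂ → (V → Spin n) → ℂ := fun t σ => t * (D : ℂ) * Complex.I + (bondEn src tgt J σ : ℂ) +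
    ∑ e, (J e : ℂ) * ((Complex.cos (t * (δ e : ℂ)) - 1) * (g e σ : ℂ) -
      Complex.sin (t * (δ e : ℂ)) * (w e σ : ℂ))
  let P' : ℂ → (V → Spin n) → ℂ := fun t σ => (D : ℂ) * Complex.I +
    ∑ e, (J e : ℂ) * (-Complex.sin (t * (δ e : ℂ)) * (δ e : ℂ) * (g e σ : ℂ) -
      Complex.cos (t * (δ e : ℂ)) * (δ e : ℂ) * (w e σ : ℂ))
  have hcb : Continuous (bondEn (n := n) src tgt J) := continuous_bondEn src tgt J
  have hg : ∀ e, Continuous (g e) := fun e => by simp only [g, planeG]; fun_prop
  have hw : ∀ e, Continuous (w e) := fun e => by simp only [w, planeW]; fun_prop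
  have hc : Continuous c := by simp only [c, zc]; fun_prop
  have hP : Continuous fun z : ℂ × (V → Spin n) => P z.1 z.2 := by
    simp only [P]; fun_prop
  have hP' : Continuous fun z : ℂ × (V → Spin n) => P' z.1 z.2 := by
    simp only [P']; fun_prop
  have hd : ∀ t σ, HasDerivAt (fun s => P s σ) (P' t σ) t := by
    intro t σ
    have h1 : HasDerivAt (fun s : ℂ => s * (D : ℂ) * Complex.I + (bondEn src tgt J σ : ℂ))
        ((D : ℂ) * Complex.I) t := by
      simpa using (((hasDerivAt_id t).mul_const (D : ℂ)).mul_const Complex.I).add_const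
        (bondEn src tgt J σ : ℂ)
    refine h1.add (HasDerivAt.fun_sum fun e _ => ?_)
    have hl : HasDerivAt (fun s : ℂ => s * (δ e : ℂ)) (δ e : ℂ) t := by
      simpa using (hasDerivAt_id t).mul_const (δ e : ℂ)
    exact (((((Complex.hasDerivAt_cos _).comp t hl).sub_const 1).mul_const (g e σ : ℂ)).sub
      (((Complex.hasDerivAt_sin _).comp t hl).mul_const (w e σ : ℂ))).const_mul (J e : ℂ)
  let F : ℂ → ℂ := fun t => ∫ σ, c σ * Complex.exp (P t σ) ∂refMeas V n
  have hF : Differentiable ℂ F :=
    differentiable_integral_entire (f := fun t σ => c σ * Complex.exp (P t σ))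
      (f' := fun t σ => c σ * (Complex.exp (P t σ) * P' t σ)) (by fun_prop) (by fun_prop)
      (fun t σ => ((hd t σ).cexp).const_mul _)
  have hP0 : ∀ σ, P 0 σ = (bondEn src tgt J σ : ℂ) := fun σ => by simp [P]
  have hreal : ∀ t : ℝ, F t = F 0 := by
    intro t
    have hG : Continuous fun σ : V → Spin n => c σ * Complex.exp (P 0 σ) := by fun_prop
    have := integral_rotConf hpq (fun v => t * φ v) hG
    simp only [F] at *
    refine Eq.trans ?_ this
    refine integral_congr_ae (Eventually.of_forall fun σ => ?_)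
    simp only [hP0]
    have hcr : c (rotConf hpq (fun v => t * φ v) σ) =
        Complex.exp ((t : ℂ) * (D : ℂ) * Complex.I) * c σ := by
      simp only [c, rotConf, rot_coe, zc_rot hpq, map_mul, ← Complex.exp_conj, Complex.conj_ofReal,
        Complex.conj_I]
      rw [mul_mul_mul_comm, ← Complex.exp_add]
      congr 2
      simp only [D]; push_cast; ring
    have hHr : bondEn src tgt J (rotConf hpq (fun v => t * φ v) σ) = bondEn src tgt J σ +
        ∑ e, J e * ((Real.cos (t * δ e) - 1) * g e σ - Real.sin (t * δ e) * w e σ) := by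
      simp only [bondEn, rotConf, rot_coe, inner_rot hpq, ← Finset.sum_add_distrib]
      refine Finset.sum_congr rfl fun e _ => ?_
      simp only [g, w, δ, mul_sub t]
      ring
    rw [hcr, hHr, mul_comm (Complex.exp _) (c σ), mul_assoc (c σ), ← Complex.exp_add]
    simp only [P]
    push_cast
    congr 2
    ring
  have hFI : F Complex.I = F 0 := by
    have hne : AnalyticOnNhd ℂ F Set.univ := fun z _ => hF.analyticAt z
    refine hne.eqOn_of_preconnected_of_frequently_eq (g := fun _ => F 0) analyticOnNhd_const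
      isPreconnected_univ (Set.mem_univ (0 : ℂ)) ?_ (Set.mem_univ Complex.I)
    have ht : Tendsto (fun k : ℕ => (((1 / ((k : ℝ) + 1) : ℝ)) : ℂ)) atTop (𝓝[≠] 0) := by
      rw [tendsto_nhdsWithin_iff]
      refine ⟨?_, Eventually.of_forall fun k => by
        simp only [Set.mem_compl_iff, Set.mem_singleton_iff, Complex.ofReal_eq_zero]; positivity⟩
      simpa [Function.comp_def] using (Complex.continuous_ofReal.tendsto 0).comp tendsto_one_div_add_atTop_nhds_zero_nat
    exact ht.frequently (Eventually.of_forall fun k => hreal _).frequently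
  have h0 : (F 0).re = ∫ σ, planeG p q (σ x).1 (σ y).1 * Real.exp (bondEn src tgt J σ)
      ∂refMeas V n := by
    simp only [F, hP0]
    rw [← Complex.reCLM_apply, ← Complex.reCLM.integral_comp_comm (integrable_cont (by fun_prop))]
    refine integral_congr_ae (Eventually.of_forall fun σ => ?_)
    simp only [c, zc, planeG, Complex.reCLM_apply, ← Complex.ofReal_exp, Complex.re_mul_ofReal]
    simp
  rw [← h0, ← hFI]
  refine (Complex.abs_re_le_norm _).trans ((norm_integral_le_integral_norm _).trans ?_)
  rw [part, ← integral_const_mul]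
  refine integral_mono (integrable_cont (by fun_prop))
    (integrable_cont ((continuous_const.mul (((continuous_bondEn src tgt J).add
      (continuous_planeEn src tgt p q _)).rexp)))) fun σ => ?_
  rw [norm_mul, Complex.norm_exp, ← Real.exp_add]
  refine (mul_le_of_le_one_left (Real.exp_pos _).le ?_).trans (Real.exp_le_exp.mpr (le_of_eq ?_))
  · simp only [c, norm_mul, Complex.norm_conj]
    exact mul_le_one₀ (norm_zc_le hpq _) (norm_nonneg _) (norm_zc_le hpq _)
  · simp only [P, planeEn, Complex.add_re, Complex.re_sum]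
    have hI : ∀ e, ((J e : ℂ) * ((Complex.cos (Complex.I * (δ e : ℂ)) - 1) * (g e σ : ℂ) -
        Complex.sin (Complex.I * (δ e : ℂ)) * (w e σ : ℂ))).re =
        J e * (Real.cosh (δ e) - 1) * g e σ := by
      intro e
      rw [mul_comm Complex.I, Complex.cos_mul_I, Complex.sin_mul_I, ← Complex.ofReal_cosh,
        ← Complex.ofReal_sinh]
      simp
      ring
    simp only [hI, g, δ]
    simp [D]
    ring

end Vale.Agent.P163
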